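import Vale.Agent.P022K.GR.Defs
import Mathlib.Algebra.Module.CharacterModule
import Mathlib.NumberTheory.Padics.RingHoms

/-!
# An anisotropic place gives small elements that map the lattice into a coisotropic subgroup
-/

open Matrix

noncomputable section

namespace Vale.Agent.P022K.GR

open Vale.Agent.P010MR

variable {g : ℕ}

theorem pf_map {R S : Type} [CommRing R] [CommRing S] (f : R →+* S) (x y : Ix g → R) :
    f (pf x y) = pf (f ∘ x) (f ∘ y) := by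
  simp [pf, J, mulVec, dotProduct, Fintype.sum_sum_type, fromBlocks, one_apply]

theorem pf_J {R : Type} [CommRing R] (c s : Ix g → R) : pf (J (Fin g) R *ᵥ c) s = c ⬝ᵥ s := by
  simp [pf, J, mulVec, dotProduct, Fintype.sum_sum_type, fromBlocks, one_apply, add_comm]

theorem pf_sum {R κ : Type} [CommRing R] [Fintype κ] (x : Ix g → R) (r : κ → R)
    (y : κ → Ix g → R) : pf x (∑ k, r k • y k) = ∑ k, r k * pf x (y k) := by
  simp [pf, mulVec_sum, dotProduct_sum, mulVec_smul]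

theorem map_mv {R S : Type} [CommRing R] [CommRing S] (f : R →+* S) (B : Mi g ℤ) (x : Ix g → R) :
    f ∘ (B.map (↑) *ᵥ x) = B.map (↑) *ᵥ (f ∘ x) := by
  funext i; simp [mulVec, dotProduct]

theorem cast_mv {S : Type} [CommRing S] (B : Mi g ℤ) (x : Ix g → ℤ) :
    (B.map (↑) *ᵥ fun i => (x i : S)) = fun i => ((B *ᵥ x) i : S) := by
  funext i; simp [mulVec, dotProduct]

theorem qi_add (a b : Ix g → ℤ) : qi (a + b) = qi a + qi b := by funext i; simp [qi]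
theorem qi_neg (a : Ix g → ℤ) : qi (-a) = -qi a := by funext i; simp [qi]
theorem qi_sub (a b : Ix g → ℤ) : qi (a - b) = qi a - qi b := by funext i; simp [qi]
theorem qi_smul (n : ℤ) (a : Ix g → ℤ) : qi (n • a) = (n : ℚ) • qi a := by funext i; simp [qi]
theorem qi_zero : qi (0 : Ix g → ℤ) = 0 := by funext i; simp [qi]
theorem qi_mv (B : Mi g ℤ) (x : Ix g → ℤ) : B.map (↑) *ᵥ qi x = qi (B *ᵥ x) := cast_mv B x

variable {p : ℕ} [hp : Fact p.Prime]

/-- a character that kills the lattice is given by a `p`-adic vector -/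
theorem char_vec (χ : (Ix g → ℚ) →+ AddCircle (1 : ℚ)) (h : ∀ l, χ (qi l) = 0) :
    ∃ (β : ℕ → Ix g → ℤ) (x : Ix g → ℤ_[p]),
      (∀ K, PadicInt.toZModPow K ∘ x = fun i => (β K i : ZMod (p ^ K))) ∧
      ∀ K s, χ (((p : ℚ) ^ K)⁻¹ • qi s) = 0 ↔ (p : ℤ) ^ K ∣ pf (β K) s := by
  have h0 : ∀ K, (p : ℚ) ^ K ≠ 0 := fun K => pow_ne_zero _ (Nat.cast_ne_zero.2 hp.out.ne_zero)
  have hp0 : (p : ℚ) ≠ 0 := Nat.cast_ne_zero.2 hp.out.ne_zero
  have h1 : ∀ K i, ∃ c : ℤ, χ (((p : ℚ) ^ K)⁻¹ • qi (Pi.single i 1)) =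
      ((c / (p : ℚ) ^ K : ℚ) : AddCircle (1 : ℚ)) := fun K i => by
    obtain ⟨a, ha⟩ := QuotientAddGroup.mk_surjective (χ (((p : ℚ) ^ K)⁻¹ • qi (Pi.single i 1)))
    have h2 : ((p ^ K • a : ℚ) : AddCircle (1 : ℚ)) = 0 := by
      rw [AddCircle.coe_nsmul, ha, ← map_nsmul, ← Nat.cast_smul_eq_nsmul ℚ, Nat.cast_pow,
        smul_inv_smul₀ (h0 K), h]
    obtain ⟨c, hc⟩ := (AddCircle.coe_eq_zero_iff _).1 h2
    refine ⟨c, ha.symm.trans (congrArg _ ?_)⟩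
    rw [eq_div_iff (h0 K)]
    simpa [mul_comm] using hc.symm
  choose c hc using h1
  have h3 : ∀ K s, χ (((p : ℚ) ^ K)⁻¹ • qi s) =
      (((c K ⬝ᵥ s : ℤ) / (p : ℚ) ^ K : ℚ) : AddCircle (1 : ℚ)) := fun K s => by
    have e : ((p : ℚ) ^ K)⁻¹ • qi s = ∑ i, s i • ((p : ℚ) ^ K)⁻¹ • qi (Pi.single i 1) := by
      funext j; simp [qi, Finset.sum_apply, Pi.single_apply, mul_comm]
    rw [e, map_sum]
    simp only [map_zsmul, hc, ← AddCircle.coe_zsmul]
    rw [dotProduct, Int.cast_sum, Finset.sum_div]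
    refine (map_sum (QuotientAddGroup.mk' (AddSubgroup.zmultiples (1 : ℚ))) _ _).symm.trans
      (congrArg _ ?_)
    exact Finset.sum_congr rfl fun i _ => by push_cast; rw [zsmul_eq_mul]; ring
  have h4 : ∀ K (a : ℤ), ((a / (p : ℚ) ^ K : ℚ) : AddCircle (1 : ℚ)) = 0 ↔ (p : ℤ) ^ K ∣ a :=
    fun K a => by
    rw [AddCircle.coe_eq_zero_iff]
    refine exists_congr fun n => ?_
    rw [zsmul_eq_mul, mul_one, eq_div_iff (h0 K), eq_comm, mul_comm]
    exact_mod_cast Iff.rfl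
  have h5 : ∀ i K, (p : ℤ) ^ K ∣ c (K + 1) i - c K i := fun i K => by
    have e : ((p : ℚ) ^ (K + 1))⁻¹ • qi ((p : ℤ) • Pi.single i 1) =
        ((p : ℚ) ^ K)⁻¹ • qi (g := g) (Pi.single i 1) := by
      rw [qi_smul, smul_smul]
      congr 1
      rw [pow_succ, mul_inv, Int.cast_natCast, inv_mul_cancel_right₀ hp0]
    have h6 := h3 (K + 1) ((p : ℤ) • Pi.single i 1)
    rw [e, hc, eq_comm, ← sub_eq_zero, ← AddCircle.coe_sub] at h6
    refine (h4 K _).1 (Eq.trans (congrArg _ ?_) h6)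
    simp only [dotProduct_smul, dotProduct_single, mul_one, smul_eq_mul]
    push_cast; rw [pow_succ]; field_simp
  refine ⟨fun K => J (Fin g) ℤ *ᵥ c K, J (Fin g) ℤ_[p] *ᵥ fun i => PadicInt.ofIntSeq _
    (PadicInt.isCauSeq_padicNorm_of_pow_dvd_sub (c · i) p (h5 i)), fun K => ?_, fun K s => ?_⟩
  · funext i
    have := fun i => PadicInt.toZModPow_ofIntSeq_of_pow_dvd_sub (c · i) p (h5 i) K
    rcases i with i | i <;>
      simp [J, mulVec, dotProduct, Fintype.sum_sum_type, fromBlocks, one_apply, this]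
  · rw [h3, h4, pf_J]

theorem small {κ : Type} [Fintype κ] (Z : AddSubgroup (Ix g → ℚ)) (hl : ∀ l, qi l ∈ Z)
    (B : κ → Mi g ℤ) (hB : ∀ k, ∀ z ∈ Z, (B k).map (↑) *ᵥ z ∈ Z)
    (iso : ∀ K β, (∀ s, ((p : ℚ) ^ K)⁻¹ • qi s ∈ Z → (p : ℤ) ^ K ∣ pf β s) →
      ((p : ℚ) ^ K)⁻¹ • qi β ∈ Z)
    (u : κ → ℤ_[p]) (hu : u ≠ 0) (an : ∀ x : Ix g → ℤ_[p], (∀ k, pf x ((B k).map (↑) *ᵥ x) = 0) →
      ∀ y, ∑ k, u k * pf x ((B k).map (↑) *ᵥ y) = 0) {ε : ℚ} (hε : 0 < ε) :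
    ∃ r : κ → ℚ, r ≠ 0 ∧ (∀ k, |r k| ≤ ε) ∧ (∃ j : ℕ, ∀ k, ∃ z : ℤ, (p : ℚ) ^ j * r k = z) ∧
      ∀ y, ∑ k, r k • qi (B k *ᵥ y) ∈ Z := by
  have h0 : ∀ K, (p : ℚ) ^ K ≠ 0 := fun K => pow_ne_zero _ (Nat.cast_ne_zero.2 hp.out.ne_zero)
  choose a ha using fun K k => ZMod.intCast_surjective (PadicInt.toZModPow K (u k))
  have h1 : ∀ K y, ∑ k, ((a K k : ℚ) / p ^ K) • qi (B k *ᵥ y) ∈ Z := fun K y => by
    refine (QuotientAddGroup.eq_zero_iff _).1 (CharacterModule.eq_zero_of_character_apply fun c => ?_)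
    let χ : (Ix g → ℚ) →+ AddCircle (1 : ℚ) := AddMonoidHom.comp c (QuotientAddGroup.mk' Z)
    have hχ : ∀ z ∈ Z, χ z = 0 := fun z hz =>
      (congrArg c ((QuotientAddGroup.eq_zero_iff _).2 hz)).trans (map_zero c)
    obtain ⟨β, x, hx, hβ⟩ := char_vec (p := p) χ fun l => hχ _ (hl l)
    have h2 : ∀ K (w : Ix g → ℤ_[p]) (w' : Ix g → ℤ) k,
        (PadicInt.toZModPow K ∘ w = fun i => (w' i : ZMod (p ^ K))) →
        PadicInt.toZModPow K (pf x ((B k).map (↑) *ᵥ w)) = (pf (β K) (B k *ᵥ w') : ℤ) :=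
      fun K w w' k h => by
        rw [pf_map, map_mv, hx, h, cast_mv]
        exact (pf_map (Int.castRingHom (ZMod (p ^ K))) _ _).symm
    have h3 := an x (fun k => PadicInt.ext_of_toZModPow.1 fun K => by
      rw [h2 K x _ k (hx K), map_zero, ZMod.intCast_zmod_eq_zero_iff_dvd, Nat.cast_pow]
      refine (hβ K _).1 (hχ _ ?_)
      rw [← qi_mv, ← mulVec_smul]
      exact hB k _ (iso K _ fun s hs => (hβ K s).1 (hχ _ hs))) fun i => y i
    have h4 := congrArg (PadicInt.toZModPow K) h3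
    rw [map_sum, map_zero] at h4
    have e : ∑ k, ((a K k : ℚ) / p ^ K) • qi (B k *ᵥ y) =
        ((p : ℚ) ^ K)⁻¹ • qi (∑ k, a K k • B k *ᵥ y) := by
      funext i; simp [qi, Finset.sum_apply, Finset.mul_sum, div_eq_inv_mul, mul_assoc]
    change χ _ = 0
    rw [e, hβ, pf_sum, ← Nat.cast_pow, ← ZMod.intCast_zmod_eq_zero_iff_dvd, ← h4, Int.cast_sum]
    refine Finset.sum_congr rfl fun k _ => ?_
    rw [map_mul, h2 K _ y k (funext fun i => map_intCast _ _), Int.cast_mul, ha]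
  obtain ⟨k0, hk0⟩ := Function.ne_iff.1 hu
  obtain ⟨D, hD⟩ : ∃ D, PadicInt.toZModPow D (u k0) ≠ 0 := by
    by_contra! h
    exact hk0 (PadicInt.ext_of_toZModPow.1 fun K => by rw [h]; simp)
  obtain ⟨L, hL⟩ := exists_nat_one_div_lt hε
  let v : ℕ → κ → ℚ := fun m k => Int.fract ((a (m * D) k : ℚ) / p ^ (m * D))
  have hL0 : (0 : ℚ) < L + 1 := by positivity
  obtain ⟨m, -, m', -, hne, he⟩ := Set.infinite_univ.exists_ne_map_eq_of_mapsTo
    (f := fun m k => ⌊(L + 1) * v m k⌋) (t := Set.univ.pi fun _ => Set.Icc (0 : ℤ) (L + 1))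
    (fun m _ k _ => ⟨Int.floor_nonneg.2 (mul_nonneg hL0.le (Int.fract_nonneg _)), by
      have : (L + 1) * v m k ≤ ((L + 1 : ℤ) : ℚ) := by
        push_cast; exact mul_le_of_le_one_right hL0.le (Int.fract_lt_one _).le
      exact (Int.floor_le_floor this).trans (Int.floor_intCast _).le⟩)
    (Set.Finite.pi fun _ => Set.finite_Icc _ _)
  wlog hlt : m < m' generalizing m m'
  · exact this m' m hne.symm he.symm (lt_of_le_of_ne (not_lt.1 hlt) hne.symm)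
  obtain ⟨d, rfl⟩ := Nat.exists_eq_add_of_lt hlt
  have h5 : ∀ k, (p : ℚ) ^ ((m + d + 1) * D) * (v (m + d + 1) k - v m k) =
      ((a ((m + d + 1) * D) k - p ^ D * (p ^ (d * D) * a (m * D) k + p ^ ((m + d) * D) *
        (⌊(a ((m + d + 1) * D) k : ℚ) / p ^ ((m + d + 1) * D)⌋ -
          ⌊(a (m * D) k : ℚ) / p ^ (m * D)⌋)) : ℤ) : ℚ) := fun k => by
    simp only [v, Int.fract]
    generalize ⌊(a ((m + d + 1) * D) k : ℚ) / p ^ ((m + d + 1) * D)⌋ = n1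
    generalize ⌊(a (m * D) k : ℚ) / p ^ (m * D)⌋ = n2
    have := h0 (m * D)
    have := h0 ((m + d + 1) * D)
    push_cast
    field_simp
    ring
  refine ⟨v (m + d + 1) - v m, fun h => hD ?_, fun k => ?_, ⟨_, fun k => ⟨_, h5 k⟩⟩, fun y => ?_⟩
  · have h6 := h5 k0
    rw [show v (m + d + 1) k0 - v m k0 = 0 from congrFun h k0, mul_zero, eq_comm,
      Int.cast_eq_zero, sub_eq_zero] at h6
    have hle : D ≤ (m + d + 1) * D := Nat.le_mul_of_pos_left _ (by omega)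
    rw [← PadicInt.cast_toZModPow _ _ hle, ← ha, ZMod.cast_intCast (pow_dvd_pow p hle),
      ZMod.intCast_zmod_eq_zero_iff_dvd, Nat.cast_pow]
    exact ⟨_, h6⟩
  · have h6 := Int.abs_sub_lt_one_of_floor_eq_floor (congrFun he k).symm
    rw [← mul_sub, abs_mul, abs_of_pos hL0, ← lt_div_iff₀' hL0] at h6
    exact (h6.trans hL).le
  · have h7 : ∀ m, ∑ k, v m k • qi (B k *ᵥ y) ∈ Z := fun m => by
      simp only [v, Int.fract, sub_smul, Finset.sum_sub_distrib, ← qi_smul]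
      exact sub_mem (h1 _ y) (sum_mem fun k _ => hl _)
    simp only [Pi.sub_apply, sub_smul, Finset.sum_sub_distrib]
    exact sub_mem (h7 _) (h7 _)

end Vale.Agent.P022K.GR
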