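import Vale.Agent.P022K.GR.Uni
import Mathlib.Topology.Instances.Matrix
import Mathlib.Topology.Algebra.Module.FiniteDimension

/-!
# Cayley elements of a division algebra of matrices
-/

open Matrix Filter Topology

noncomputable section

namespace Vale.Agent.P022K.GR

open Vale.Agent.P010MR

variable {g : ℕ} {A : Subalgebra ℚ (Mi g ℚ)}

/-- skew for the symplectic form -/
def Sk (s : Mi g ℚ) : Prop := sᵀ * J (Fin g) ℚ = -(J (Fin g) ℚ * s)

theorem inv_mem {a c : Mi g ℚ} (ha : a ∈ A) (h : a * c = 1) : c ∈ A := by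
  have h' := mul_eq_one_comm.1 h
  obtain ⟨a', e⟩ := LinearMap.injective_iff_surjective.1 (show Function.Injective
    (LinearMap.mulLeft ℚ (⟨a, ha⟩ : A)) from fun x y e => Subtype.ext (by
      have e' : a * x.1 = a * y.1 := congrArg Subtype.val e
      rw [← one_mul x.1, ← h', mul_assoc, e', ← mul_assoc, h', one_mul])) 1
  have e' : a * a'.1 = 1 := congrArg Subtype.val e
  rw [← mul_one c, ← e', ← mul_assoc, h', one_mul]
  exact a'.2

/-- symplectic elements of `A` that are congruent to one -/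
def Gd (A : Subalgebra ℚ (Mi g ℚ)) (T : ℕ) (b : Sp g ℚ) : Prop := b.1 ∈ A ∧ ∃ m : ℕ, 0 < m ∧
  m.Coprime T ∧ (∀ i j, ∃ z : ℤ, m * b.1 i j = z) ∧ ∀ i j, ∃ z : ℤ, m * ((b⁻¹).1 - 1) i j = 2 * z

theorem det_cop {T : ℕ} (hT : 2 ≤ T) (S : Mi g ℤ) {t : ℤ} (ht : (T : ℤ) ∣ t) :
    (1 + t • S).det ≠ 0 ∧ (1 + t • S).det.natAbs.Coprime T := by
  have h : ((1 + t • S).det : ZMod T) = 1 := by
    have e : (Int.castRingHom (ZMod T)).mapMatrix (1 + t • S) = 1 := by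
      rw [map_add, map_one, map_zsmul, ← Int.cast_smul_eq_zsmul (ZMod T),
        (ZMod.intCast_zmod_eq_zero_iff_dvd t T).2 ht, zero_smul, add_zero]
    exact ((Int.castRingHom (ZMod T)).map_det _).trans (by rw [e, det_one])
  have : Fact (1 < T) := ⟨hT⟩
  refine ⟨fun h0 => by rw [h0] at h; simp at h, ?_⟩
  have h2 := (ZMod.coe_int_isUnit_iff_isCoprime _ _).1 (h ▸ isUnit_one)
  exact (Int.isCoprime_iff_nat_coprime.1 h2.symm :)

theorem cay {T : ℕ} (hT : 2 ≤ T) {S : Mi g ℤ} (hA : S.map (↑) ∈ A) (hS : Sk (S.map (↑))) {t : ℤ}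
    (ht : (T : ℤ) ∣ t) : ∃ b, Gd A T b ∧
      ((1 + -t • S).det : ℚ) • (b.1 + 1) = (2 : ℚ) • (1 + -t • S).adjugate.map (↑) := by
  let F := (Int.castRingHom ℚ).mapMatrix (m := Ix g)
  have h1 : ∀ t : ℤ, (T : ℤ) ∣ t → F (1 + t • S) *
      (((1 + t • S).det : ℚ)⁻¹ • F (1 + t • S).adjugate) = 1 := fun t ht => by
    rw [mul_smul_comm, ← map_mul, mul_adjugate, map_zsmul, map_one,
      ← Int.cast_smul_eq_zsmul ℚ (det _), inv_smul_smul₀ (Int.cast_ne_zero.2 (det_cop hT S ht).1)]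
  have h2 : ∀ t : ℤ, F (1 + t • S) = 1 + (t : ℚ) • S.map (↑) := fun t => by
    rw [map_add, map_one, map_zsmul, Int.cast_smul_eq_zsmul]; rfl
  have h3 : ∀ t : ℤ, (F (1 + t • S))ᵀ * J (Fin g) ℚ = J (Fin g) ℚ * F (1 + -t • S) := fun t => by
    rw [h2, h2, transpose_add, transpose_one, transpose_smul, add_mul, smul_mul_assoc, hS, mul_add,
      mul_smul_comm, Int.cast_neg, neg_smul, smul_neg, one_mul, mul_one]
  have h4 : F (1 + t • S) * F (1 + -t • S) = F (1 + -t • S) * F (1 + t • S) := by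
    rw [← map_mul, ← map_mul]; congr 1; simp [add_mul, mul_add]; abel
  have hP := h1 t ht
  have hN := h1 (-t) ht.neg_right
  have k1 := h3 t
  have k2 := h3 (-t)
  have k3 : F (1 + t • S) + F (1 + -t • S) = (2 : ℚ) • 1 := by
    rw [h2, h2, Int.cast_neg, neg_smul, two_smul]; abel
  have k4 : F (1 + -t • S) - F (1 + t • S) = (2 : ℚ) • F (-t • S) := by
    rw [← map_sub, two_smul, ← map_add]; congr 1; rw [neg_smul]; abel
  have k5 : ∀ t : ℤ, F (1 + t • S) ∈ A := fun t => h2 t ▸ add_mem A.one_mem (A.smul_mem hA _)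
  rw [neg_neg] at k2
  obtain ⟨d1, c1⟩ := det_cop hT S ht
  obtain ⟨d2, c2⟩ := det_cop hT S ht.neg_right
  generalize (1 + t • S).det = d, (1 + -t • S).det = d', (1 + t • S).adjugate = P1,
    (1 + -t • S).adjugate = N1 at *
  have d1' : (d : ℚ) ≠ 0 := Int.cast_ne_zero.2 d1
  have d2' : (d' : ℚ) ≠ 0 := Int.cast_ne_zero.2 d2
  have hP' := mul_eq_one_comm.1 hP
  have hN' := mul_eq_one_comm.1 hN
  let b : Sp g ℚ := ⟨F (1 + t • S) * ((d' : ℚ)⁻¹ • F N1), SymplecticGroup.mem_iff'.2 (by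
    rw [transpose_mul, mul_assoc _ _ (J _ _), k1, mul_assoc, mul_assoc, ← mul_assoc (F _), ← h4,
      mul_assoc (F _), hN, mul_one, ← k2, ← mul_assoc, ← transpose_mul, hN, transpose_one, one_mul])⟩
  have hb : (b⁻¹).1 = F (1 + -t • S) * ((d : ℚ)⁻¹ • F P1) := by
    have e : (b⁻¹).1 * b.1 = 1 := congrArg Subtype.val (inv_mul_cancel b)
    rw [← mul_one (b⁻¹).1, ← hP, ← mul_one (F (1 + t • S)), ← hN', ← mul_assoc, ← mul_assoc,
      ← mul_assoc, mul_assoc (b⁻¹).1, e, one_mul]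
  have e : (((d * d').natAbs : ℕ) : ℚ) = (d * d').sign * d * d' := by
    rw [← Int.cast_natCast, ← Int.sign_mul_self_eq_natAbs, mul_assoc, Int.cast_mul, Int.cast_mul]
  refine ⟨b, ⟨mul_mem (k5 t) (inv_mem (k5 _) hN), (d * d').natAbs,
    Int.natAbs_pos.2 (mul_ne_zero d1 d2), Int.natAbs_mul d d' ▸ c1.mul_left c2, fun i j =>
      ⟨(d * d').sign * d * ((1 + t • S) * N1) i j, ?_⟩, fun i j =>
      ⟨(d * d').sign * d' * ((-t • S) * P1) i j, ?_⟩⟩, ?_⟩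
  · simp only [b]
    rw [mul_smul_comm, ← map_mul, e, Matrix.smul_apply, smul_eq_mul, mul_assoc, mul_inv_cancel_left₀ d2',
      Int.cast_mul, Int.cast_mul]
    rfl
  · have e2 : F (-t • S * P1) i j = ((-t • S * P1) i j : ℤ) := rfl
    rw [hb, ← hP, ← sub_mul, k4, mul_smul_comm, smul_mul_assoc, ← map_mul, e, Matrix.smul_apply,
      Matrix.smul_apply, e2, Int.cast_mul, Int.cast_mul, smul_eq_mul, smul_eq_mul]
    field_simp
  · simp only [b]
    rw [← hN, ← add_mul, k3, mul_smul_comm, smul_inv_smul₀ d2', smul_mul_assoc, one_mul]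
    rfl

theorem pow_mem {ℓ : ℕ} [hp : Fact ℓ.Prime] {T : ℕ} (hT : 0 < T) (W : Submodule ℚ_[ℓ] (Mi g ℚ_[ℓ]))
    (hW : ∀ b, Gd A (T * ℓ) b → b.1.map (↑) ∈ W) {s : Mi g ℚ} (hA : s ∈ A) (hs : Sk s) (n : ℕ) :
    (s ^ n).map (↑) ∈ W := by
  obtain ⟨⟨D, hD⟩, h⟩ := IsLocalization.exist_integer_multiples_of_finite (nonZeroDivisors ℤ)
    fun x : Ix g × Ix g => s x.1 x.2
  choose S hS using h
  have hD : (D : ℚ_[ℓ]) ≠ 0 := Int.cast_ne_zero.2 (nonZeroDivisors.ne_zero hD)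
  have e : (of fun i j => S (i, j)).map (↑) = (D : ℚ) • s := by
    ext i j; simpa using hS (i, j)
  generalize (of fun i j => S (i, j) : Mi g ℤ) = S at e
  let F := (Rat.castHom ℚ_[ℓ]).mapMatrix (m := Ix g)
  let G := (Int.castRingHom ℚ_[ℓ]).mapMatrix (m := Ix g)
  have hF : ∀ (c : ℚ) a, F (c • a) = (c : ℚ_[ℓ]) • F a := fun c a => by ext i j; simp [F]
  have hG : ∀ a : Mi g ℤ, F (a.map (↑)) = G a := fun a => by ext i j; simp [F, G]
  let t : ℕ → ℚ_[ℓ] := fun n => T * ℓ * ℓ ^ n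
  have t0 : ∀ n, t n ≠ 0 := fun n => mul_ne_zero (mul_ne_zero (Nat.cast_ne_zero.2 hT.ne')
    (Nat.cast_ne_zero.2 hp.out.ne_zero)) (pow_ne_zero _ (Nat.cast_ne_zero.2 hp.out.ne_zero))
  have t1 : Tendsto t atTop (𝓝 0) := by
    simpa using (tendsto_pow_atTop_nhds_zero_of_norm_lt_one (Padic.norm_p_lt_one (p := ℓ))).const_mul
      ((T : ℚ_[ℓ]) * ℓ)
  have h1 : 1 ∈ W := by
    simpa using hW 1 ⟨A.one_mem, 1, one_pos, Nat.coprime_one_left _, fun i j =>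
      ⟨(1 : Mi g ℤ) i j, by simp [one_apply]⟩, fun i j => ⟨0, by simp⟩⟩
  have h2 : ∀ X : Mi g ℚ_[ℓ], (∀ n, X * (1 + -t n • G S).adjugate ∈ W) → X ∈ W := fun X hX => by
    have c : Continuous fun x : ℚ_[ℓ] => X * (1 + -x • G S).adjugate :=
      continuous_const.matrix_mul (Continuous.matrix_adjugate (by fun_prop))
    simpa using W.closed_of_finiteDimensional.mem_of_tendsto ((c.tendsto 0).comp t1) (.of_forall hX)
  have h3 : ∀ k n, G S ^ k * (1 + -t n • G S).adjugate ∈ W := fun k => by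
    induction k with
    | zero =>
      intro n
      obtain ⟨b, hb, h4⟩ := cay (T := T * ℓ) (by nlinarith [hp.out.two_le]) (e ▸ A.smul_mem hA _)
        (by rw [e, Sk, transpose_smul, smul_mul_assoc, hs, mul_smul_comm, smul_neg])
        (t := (T * ℓ : ℕ) * ℓ ^ n) (dvd_mul_right _ _)
      have h5 := congrArg F h4
      rw [hF, hF, map_add, map_one, hG, RingHom.map_adjugate, map_add, map_one, map_zsmul,
        ← Int.cast_smul_eq_zsmul ℚ_[ℓ] _ (G S)] at h5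
      push_cast at h5
      rw [pow_zero, one_mul, ← W.smul_mem_iff (two_ne_zero (α := ℚ_[ℓ]))]
      exact h5 ▸ W.smul_mem _ (add_mem (hW b hb) h1)
    | succ k ih =>
      intro n
      have h4 := sub_mem (ih n) (W.smul_mem (1 + -t n • G S).det (h2 _ ih))
      rw [← mul_one (G S ^ k), ← mul_smul_comm, ← mul_adjugate, mul_one, ← mul_sub, add_mul, one_mul,
        sub_add_cancel_left, neg_smul, neg_mul, neg_neg, smul_mul_assoc, mul_smul_comm,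
        W.smul_mem_iff (t0 n), ← mul_assoc] at h4
      rwa [pow_succ, neg_smul]
  have h4 := h2 _ (h3 n)
  rw [← hG, e, hF, smul_pow, ← map_pow, Rat.cast_intCast, W.smul_mem_iff (pow_ne_zero _ hD)] at h4
  exact h4

/-- a division algebra of matrices that is stable under the adjoint and anisotropic at a place -/
theorem ani_of (hd : ∀ a ∈ A, a ≠ 0 → IsUnit a)
    (ha : ∀ a ∈ A, ∃ a' ∈ A, aᵀ * J (Fin g) ℚ = J (Fin g) ℚ * a') {ℓ : ℕ} [hp : Fact ℓ.Prime]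
    {e : Mi g ℚ_[ℓ]} (he : e ≠ 0)
    (hm : e ∈ Submodule.span ℚ_[ℓ] {x | ∃ s ∈ A, Sk s ∧ ∃ n : ℕ, (s ^ n).map (↑) = x})
    (an : ∀ x : Ix g → ℚ_[ℓ], (∀ a ∈ A, pf x (a.map (↑) *ᵥ x) = 0) → ∀ y, pf x (e *ᵥ y) = 0)
    {T : ℕ} (hT : 0 < T) : ∃ (M : ℕ) (κ : Type) (_ : Fintype κ) (b : κ → Sp g ℚ),
      Ani ℓ M b ∧ (∀ k, (b k).1 ∈ A) ∧ M.Coprime T := by
  obtain ⟨κ, a, -, hsp, hli⟩ := exists_linearIndependent' ℚ fun b : {b // Gd A (T * ℓ) b} => b.1.1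
  have := hli.finite
  have := Fintype.ofFinite κ
  choose hA m m0 m1 m2 m3 using fun k => (a k).2
  let W := Submodule.span ℚ_[ℓ] (Set.range fun k => ((a k).1.1.map (↑) : Mi g ℚ_[ℓ]))
  have hW : ∀ b, Gd A (T * ℓ) b → b.1.map (↑) ∈ W := fun b hb => by
    obtain ⟨r, hr⟩ := (Submodule.mem_span_range_iff_exists_fun ℚ).1
      (hsp.ge (Submodule.subset_span ⟨⟨b, hb⟩, rfl⟩))
    refine (Submodule.mem_span_range_iff_exists_fun _).2 ⟨fun k => r k, ?_⟩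
    ext i j
    simpa [Matrix.sum_apply] using congrArg (fun x : Mi g ℚ => (x i j : ℚ_[ℓ])) hr
  have key : ∀ w ∈ W, ∃ u : κ → ℚ_[ℓ], (u = 0 → w = 0) ∧ ∀ x y,
      ∑ k, u k * pf x ((a k).1.1.map (↑) *ᵥ y) = pf x (w *ᵥ y) := fun w hw => by
    obtain ⟨u, rfl⟩ := (Submodule.mem_span_range_iff_exists_fun _).1 hw
    exact ⟨u, fun h => by simp [h], fun x y => by simp only [sum_mulVec, smul_mulVec, pf_sum]⟩
  have dv : ∀ k, ∃ c : ℕ, ((∏ k, m k : ℕ) : ℚ) = c * m k := fun k => by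
    obtain ⟨c, hc⟩ := Finset.dvd_prod_of_mem m (Finset.mem_univ k)
    exact ⟨c, by rw [hc, Nat.cast_mul, mul_comm]⟩
  obtain ⟨u, hu, hu'⟩ := key e (Submodule.span_le.2 (by
    rintro _ ⟨s, h1, h2, n, rfl⟩; exact pow_mem hT W hW h1 h2 n) hm)
  refine ⟨∏ k, m k, κ, this, fun k => a k, ⟨Finset.prod_pos fun k _ => m0 k, fun k i j => ?_,
    fun k i j => ?_, fun r hr => hd _ (sum_mem fun k _ => A.smul_mem (hA k) _) fun h =>
      hr (funext (Fintype.linearIndependent_iff.1 hli r h)), u, mt hu he, fun x hx y => ?_⟩, hA,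
    Nat.Coprime.prod_left fun k _ => (m1 k).coprime_mul_right_right⟩
  · obtain ⟨c, hc⟩ := dv k
    obtain ⟨z, hz⟩ := m2 k i j
    exact ⟨c * z, by rw [hc, mul_assoc, hz]; push_cast; ring⟩
  · obtain ⟨c, hc⟩ := dv k
    obtain ⟨z, hz⟩ := m3 k i j
    exact ⟨c * z, by rw [hc, mul_assoc, hz]; push_cast; ring⟩
  rw [hu']
  refine an x (fun b hb => ?_) y
  obtain ⟨b', hb', h⟩ := ha b hb
  have h' : b'ᵀ * J (Fin g) ℚ = J (Fin g) ℚ * b := by
    have := congrArg transpose h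
    rwa [transpose_mul, transpose_mul, transpose_transpose, J_transpose, neg_mul, mul_neg, neg_inj,
      eq_comm] at this
  obtain ⟨v, -, hv⟩ := key _ (pow_mem hT W hW (sub_mem hb hb')
    (by rw [Sk, transpose_sub, sub_mul, h, h', mul_sub, neg_sub]) 1)
  have h1 := hv x x
  have h2 : pf x (b'.map (↑) *ᵥ x) = -pf x (b.map (↑) *ᵥ x) := by
    have h3 := congrArg (Rat.castHom ℚ_[ℓ]).mapMatrix h
    rw [map_mul, map_mul, RingHom.mapMatrix_apply _ (J _ _), map_J] at h3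
    rw [← pf_swap, pf, pf, mulVec_mulVec, ← vecMul_transpose (b.map _), ← dotProduct_mulVec,
      mulVec_mulVec]
    exact congrArg (fun z => x ⬝ᵥ z *ᵥ x) h3.symm
  rw [pow_one, Matrix.map_sub _ Rat.cast_sub, sub_mulVec, sub_eq_add_neg, pf_add, ← neg_one_smul ℚ_[ℓ],
    pf_smul, h2, Finset.sum_eq_zero fun k _ => by rw [hx, mul_zero]] at h1
  linear_combination (-1 / 2 : ℚ_[ℓ]) * h1

/-- the case in which all places over `ℓ` are anisotropic -/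
theorem ani_of' (hg : 0 < g) (hd : ∀ a ∈ A, a ≠ 0 → IsUnit a)
    (ha : ∀ a ∈ A, ∃ a' ∈ A, aᵀ * J (Fin g) ℚ = J (Fin g) ℚ * a') {ℓ : ℕ} [hp : Fact ℓ.Prime]
    (an : ∀ x : Ix g → ℚ_[ℓ], (∀ a ∈ A, pf x (a.map (↑) *ᵥ x) = 0) → x = 0)
    {T : ℕ} (hT : 0 < T) : ∃ (M : ℕ) (κ : Type) (_ : Fintype κ) (b : κ → Sp g ℚ),
      Ani ℓ M b ∧ (∀ k, (b k).1 ∈ A) ∧ M.Coprime T := by
  have : Nonempty (Ix g) := ⟨.inl ⟨0, hg⟩⟩
  exact ani_of hd ha one_ne_zero (Submodule.subset_span ⟨0, A.zero_mem, by simp [Sk], 0, by simp⟩)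
    (fun x h y => by simp [an x h, pf]) hT

/-- no degeneration away from `ℓ` -/
theorem un_of (hg : 0 < g) (hd : ∀ a ∈ A, a ≠ 0 → IsUnit a)
    (ha : ∀ a ∈ A, ∃ a' ∈ A, aᵀ * J (Fin g) ℚ = J (Fin g) ℚ * a') {ℓ : ℕ} [hp : Fact ℓ.Prime]
    (an : ∀ x : Ix g → ℚ_[ℓ], (∀ a ∈ A, pf x (a.map (↑) *ᵥ x) = 0) → x = 0) {T : ℕ} (hT : 0 < T)
    (hl : ℓ.Coprime T) : ∃ n : ℕ, 2 ≤ n ∧ n.Coprime T ∧ ∀ τ ∈ Hg g, (∀ a ∈ A, Fix τ a) →
      ∀ (C : Type) [NormedField C] [IsUltrametricDist C] (j : ℂ →+* C), ‖(n : C)‖ = 1 → Un j τ n := by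
  obtain ⟨M, κ, _, b, H, hb, hM⟩ := ani_of' hg hd ha an hT
  refine ⟨ℓ ^ 2 * M, by nlinarith [hp.out.two_le, H.pos], (hl.pow_left 2).mul_left hM,
    fun τ hτ hF C _ _ j hn => uni g ℓ M κ b H τ hτ (fun k => hF _ (hb k)) C j ?_⟩
  rw [sq, mul_assoc, Nat.cast_mul, norm_mul] at hn
  exact (IsUltrametricDist.norm_natCast_le_one C _).antisymm (hn.ge.trans
    (mul_le_of_le_one_left (norm_nonneg _) (IsUltrametricDist.norm_natCast_le_one C _)))

end Vale.Agent.P022K.GR
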