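import Vale.Agent.P022K.GR.Ani
import Mathlib.NumberTheory.Padics.Complex
import Mathlib.NumberTheory.NumberField.Basic
import Mathlib.RingTheory.Trace.Basic
import Mathlib.Algebra.Quaternion

/-!
# One anisotropic place of the centre is enough
-/

open Matrix Filter Topology Polynomial

set_option linter.unusedSectionVars false

noncomputable section

namespace Vale.Agent.P022K.GR

open Vale.Agent.P010MR

variable {g : ℕ} {A : Subalgebra ℚ (Mi g ℚ)} {M : Type} [Field M] [NumberField M]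
  {ℓ : ℕ} [hp : Fact ℓ.Prime] {C : Type} [NormedField C] [NormedAlgebra ℚ_[ℓ] C] [IsAlgClosed C]
  [Normal ℚ_[ℓ] C] [CharZero C]

theorem ded (z : (M →ₐ[ℚ] C) → C) (hz : ∀ m, ∑ σ, σ m * z σ = 0) : ∀ σ, z σ = 0 :=
  Fintype.linearIndependent_iff.1 (linearIndependent_toLinearMap ℚ M C) z
    (LinearMap.ext fun m => by
      rw [LinearMap.sum_apply, LinearMap.zero_apply, ← hz m]
      exact Finset.sum_congr rfl fun σ _ => mul_comm _ _)

section Emb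

variable (C) {ρ : M →ₐ[ℚ] Mi g ℚ} {Γ : Mi g M}
  (hΓ : ∀ m i j, (J (Fin g) ℚ * ρ m) i j = Algebra.trace ℚ M (m * Γ i j))
include hΓ

theorem pf_emb (m : M) (x y : Ix g → ℚ_[ℓ]) : algebraMap ℚ_[ℓ] C (pf x ((ρ m).map (↑) *ᵥ y)) =
    ∑ σ : M →ₐ[ℚ] C, σ m * (algebraMap ℚ_[ℓ] C ∘ x ⬝ᵥ Γ.map σ *ᵥ algebraMap ℚ_[ℓ] C ∘ y) := by
  have e : (J (Fin g) ℚ_[ℓ] * ((ρ m).map (↑) : Mi g ℚ_[ℓ])).map (algebraMap ℚ_[ℓ] C) =
      ∑ σ : M →ₐ[ℚ] C, σ m • Γ.map σ := by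
    rw [← map_J _ (Rat.castHom ℚ_[ℓ]), ← Rat.coe_castHom, ← Matrix.map_mul]
    ext i j
    simp only [map_apply, hΓ, Matrix.sum_apply, Matrix.smul_apply, smul_eq_mul, ← map_mul,
      ← trace_eq_sum_embeddings]
    simp
  rw [pf, mulVec_mulVec, RingHom.map_dotProduct]
  simp only [← smul_eq_mul, ← dotProduct_smul, ← smul_mulVec, ← dotProduct_sum, ← sum_mulVec, ← e]
  exact congrArg _ (funext fun i => RingHom.map_mulVec _ _ _ _)

theorem pf_aeval (θ m : M) (h : ℚ_[ℓ][X]) (x y : Ix g → ℚ_[ℓ]) :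
    algebraMap ℚ_[ℓ] C (pf x ((aeval ((ρ θ).map (↑) : Mi g ℚ_[ℓ]) h * (ρ m).map (↑)) *ᵥ y)) =
      ∑ σ : M →ₐ[ℚ] C, σ m * (aeval (σ θ) h *
        (algebraMap ℚ_[ℓ] C ∘ x ⬝ᵥ Γ.map σ *ᵥ algebraMap ℚ_[ℓ] C ∘ y)) := by
  induction h using Polynomial.induction_on' with
  | add p q hp hq =>
    simp only [map_add, add_mul, add_mulVec, pf_add, hp, hq, mul_add, Finset.sum_add_distrib]
  | monomial n a =>
    have e : ((ρ θ).map (↑) : Mi g ℚ_[ℓ]) ^ n * (ρ m).map (↑) = (ρ (θ ^ n * m)).map (↑) := by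
      rw [map_mul, map_pow]
      exact ((map_mul (Rat.castHom ℚ_[ℓ]).mapMatrix _ _).trans (by rw [map_pow]; rfl)).symm
    rw [aeval_monomial, mul_assoc, e, ← Algebra.smul_def, smul_mulVec, pf_smul, map_mul,
      pf_emb C hΓ, Finset.mul_sum]
    exact Finset.sum_congr rfl fun σ _ => by rw [aeval_monomial, map_mul, map_pow]; ring

end Emb

theorem ani_lim {Γ : Mi g M} {I : Mi g ℚ} {μ : M →ₐ[ℚ] C} {c : ℝ} (j : Ix g)
    (an : ∀ x : Ix g → ℚ, c * ‖μ (((fun i => (x i : M)) ᵥ* Γ) j)‖ ^ 2 ≤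
      ‖μ ((fun i => (x i : M)) ⬝ᵥ Γ *ᵥ fun i => ((I *ᵥ x) i : M))‖) (x : Ix g → ℚ_[ℓ]) :
    c * ‖(algebraMap ℚ_[ℓ] C ∘ x ᵥ* Γ.map μ) j‖ ^ 2 ≤
      ‖algebraMap ℚ_[ℓ] C ∘ x ⬝ᵥ Γ.map μ *ᵥ algebraMap ℚ_[ℓ] C ∘ (I.map (↑) *ᵥ x)‖ := by
  have hd : DenseRange fun (q : Ix g → ℚ) i => (q i : ℚ_[ℓ]) :=
    DenseRange.piMap fun _ => Padic.denseRange_ratCast ℓ
  have ci : Continuous (algebraMap ℚ_[ℓ] C) := continuous_algebraMap _ _
  refine hd.induction_on x (isClosed_le ?_ ?_) fun q => ?_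
  · simp only [vecMul, dotProduct, Function.comp]; fun_prop
  · simp only [mulVec, dotProduct, Function.comp]; fun_prop
  · simpa [vecMul, mulVec, dotProduct] using an q

theorem ani_emb {ρ : M →ₐ[ℚ] Mi g ℚ} {Γ : Mi g M}
    (hΓ : ∀ m i j, (J (Fin g) ℚ * ρ m) i j = Algebra.trace ℚ M (m * Γ i j)) (h0 : Γ ≠ 0)
    (I : Mi g ℚ) (μ : M →ₐ[ℚ] C) {c : Ix g → ℝ} (hc : ∀ j, 0 < c j)
    (an : ∀ j (x : Ix g → ℚ), c j * ‖μ (((fun i => (x i : M)) ᵥ* Γ) j)‖ ^ 2 ≤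
      ‖μ ((fun i => (x i : M)) ⬝ᵥ Γ *ᵥ fun i => ((I *ᵥ x) i : M))‖) :
    ∃ e ≠ 0, e ∈ Submodule.span ℚ_[ℓ] (Set.range fun m => ((ρ m).map (↑) : Mi g ℚ_[ℓ])) ∧
      ∀ x, (∀ m, pf x ((ρ m * I).map (↑) *ᵥ x) = 0) → ∀ y, pf x (e *ᵥ y) = 0 := by
  obtain pb := Field.powerBasisOfFiniteOfSeparable ℚ M
  obtain ⟨h, hh⟩ : minpoly ℚ_[ℓ] (μ pb.gen) ∣ (minpoly ℚ pb.gen).map (algebraMap ℚ ℚ_[ℓ]) :=
    minpoly.dvd _ _ (by rw [aeval_map_algebraMap, aeval_algHom_apply, minpoly.aeval, map_zero])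
  have h2 : aeval (μ pb.gen) h ≠ 0 := by
    have h3 := Separable.map (f := algebraMap ℚ ℚ_[ℓ]) (Algebra.IsSeparable.isSeparable ℚ pb.gen)
    rw [hh] at h3
    exact (aeval_ne_zero_of_isCoprime h3.isCoprime _).resolve_left (by simp)
  refine ⟨aeval ((ρ pb.gen).map (↑) : Mi g ℚ_[ℓ]) h, fun he => h0 ?_, ?_,
    fun x hx y => (algebraMap ℚ_[ℓ] C).injective ?_⟩
  · ext i j
    have h4 := ded _ (fun m => (pf_aeval C hΓ pb.gen m h (Pi.single i 1) (Pi.single j 1)).symm.trans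
      (by rw [he, zero_mul, zero_mulVec]; simp [pf])) μ
    simpa [h2, Pi.single_apply, dotProduct, mulVec, apply_ite] using h4
  · rw [aeval_eq_sum_range]
    exact sum_mem fun k _ => Submodule.smul_mem _ _ (Submodule.subset_span ⟨pb.gen ^ k, by
      beta_reduce; rw [map_pow]; exact map_pow (Rat.castHom ℚ_[ℓ]).mapMatrix _ _⟩)
  have h4 := ded _ (fun m => (pf_emb C hΓ m x (I.map (↑) *ᵥ x)).symm.trans (by
    rw [mulVec_mulVec, ← Rat.coe_castHom, ← Matrix.map_mul, Rat.coe_castHom, hx, map_zero])) μ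
  have h5 : ∀ j, (algebraMap ℚ_[ℓ] C ∘ x ᵥ* Γ.map μ) j = 0 := fun j => by
    have h6 := ani_lim j (an j) x
    rw [h4, norm_zero] at h6
    exact norm_eq_zero.1 (pow_eq_zero_iff two_ne_zero |>.1 (le_antisymm
      (nonpos_of_mul_nonpos_right h6 (hc j)) (sq_nonneg _)))
  have h6 := pf_aeval C hΓ pb.gen 1 h x y
  rw [map_one, Matrix.map_one _ Rat.cast_zero Rat.cast_one, mul_one] at h6
  rw [h6, map_zero]
  refine Finset.sum_eq_zero fun σ _ => mul_eq_zero_of_right _ (mul_eq_zero.2 ?_)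
  have h7 : aeval (σ pb.gen) (minpoly ℚ_[ℓ] (μ pb.gen)) * aeval (σ pb.gen) h = 0 := by
    rw [← map_mul, ← hh, aeval_map_algebraMap, aeval_algHom_apply, minpoly.aeval, map_zero]
  refine (mul_eq_zero.1 h7).symm.imp_right fun h8 => ?_
  obtain ⟨s, hs⟩ := minpoly.exists_algEquiv_of_root' (Algebra.IsAlgebraic.isAlgebraic _) h8
  have h9 : (s.toAlgHom.restrictScalars ℚ).comp μ = σ := pb.algHom_ext hs
  rw [dotProduct_mulVec, show algebraMap ℚ_[ℓ] C ∘ x ᵥ* Γ.map σ = 0 from funext fun j => ?_,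
    zero_dotProduct]
  have := congrArg s (h5 j)
  simpa [← h9, vecMul, dotProduct] using this

theorem adj_of_pf {X Y : Mi g ℚ} (h : ∀ x y, pf (X *ᵥ x) y = pf x (Y *ᵥ y)) :
    Xᵀ * J (Fin g) ℚ = J (Fin g) ℚ * Y := by
  ext i j
  have := h (Pi.single i 1) (Pi.single j 1)
  rw [pf, pf, ← vecMul_transpose, ← dotProduct_mulVec, mulVec_mulVec, mulVec_mulVec] at this
  simpa using this

open Quaternion

/-- an unramified non-square `a` and an element `b` of odd valuation -/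
theorem ram_of [IsUltrametricDist C] {a b : M} (μ : M →+* C)
    (h1 : ∀ s t : M, ‖μ (s ^ 2 - a * t ^ 2)‖ = max ‖μ s‖ ‖μ t‖ ^ 2) (h2 : ∀ s : M, ‖μ b‖ ≠ ‖μ s‖ ^ 2)
    (Y : ℍ[M,a,b]) : ‖μ Y.re‖ ^ 2 ≤ ‖μ (Y * star Y).re‖ := by
  have e : (Y * star Y).re = Y.re ^ 2 - a * Y.imI ^ 2 + -(b * (Y.imJ ^ 2 - a * Y.imK ^ 2)) := by
    simp; ring
  have h3 : ∀ s t : M, ∃ w, ‖μ (s ^ 2 - a * t ^ 2)‖ = ‖μ w‖ ^ 2 := fun s t => by
    rw [h1]; rcases le_total ‖μ s‖ ‖μ t‖ with h | h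
    exacts [⟨t, by rw [max_eq_right h]⟩, ⟨s, by rw [max_eq_left h]⟩]
  refine le_trans (le_trans (pow_le_pow_left₀ (norm_nonneg _) (le_max_left _ _) 2)
    (h1 Y.re Y.imI).ge) ?_
  rw [e, map_add]
  by_cases h0 : Y.imJ ^ 2 - a * Y.imK ^ 2 = 0
  · simp [h0]
  rw [IsUltrametricDist.norm_add_eq_max_of_norm_ne_norm fun h => ?_]
  · exact le_max_left _ _
  obtain ⟨w, hw⟩ := h3 Y.re Y.imI
  obtain ⟨w', hw'⟩ := h3 Y.imJ Y.imK
  have h4 : ‖μ w'‖ ^ 2 ≠ 0 := hw' ▸ norm_ne_zero_iff.2 ((map_ne_zero μ).2 h0)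
  rw [hw, map_neg, norm_neg, map_mul, norm_mul, hw'] at h
  exact h2 (w / w') (by rw [map_div₀, norm_div, div_pow, h, mul_div_cancel_right₀ _ h4])

section Quat

variable {a b c : M} {E : ℍ[M,a,b] ≃ₗ[ℚ] (Ix g → ℚ)} {r : ℍ[M,a,b] → Mi g ℚ}
  (hr : ∀ z x, r z *ᵥ E x = E (x * z))
include hr

omit hr in
theorem ext_E {X Y : Mi g ℚ} (h : ∀ x, X *ᵥ E x = Y *ᵥ E x) : X = Y :=
  toLin'.injective (LinearMap.ext fun v => by simpa using h (E.symm v))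

theorem r_mul (z w : ℍ[M,a,b]) : r z * r w = r (w * z) :=
  ext_E (E := E) fun x => by rw [← mulVec_mulVec, hr, hr, hr, mul_assoc]
theorem r_add (z w : ℍ[M,a,b]) : r z + r w = r (z + w) :=
  ext_E (E := E) fun x => by rw [add_mulVec, hr, hr, hr, mul_add, map_add]
theorem r_smul (q : ℚ) (z : ℍ[M,a,b]) : q • r z = r (q • z) :=
  ext_E (E := E) fun x => by rw [smul_mulVec, hr, hr, mul_smul_comm, map_smul]
theorem r_one : r 1 = 1 := ext_E (E := E) fun x => by rw [hr, mul_one, one_mulVec]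
theorem r_zero : r 0 = 0 := ext_E (E := E) fun x => by rw [hr, mul_zero, map_zero, zero_mulVec]

variable {δ : ℍ[M,a,b]} (hδ : δ.re = 0)

theorem r0 : r ((0 : M) + (0 : M) • δ) = 0 := by simpa using r_zero hr
theorem r1 : r ((1 : M) + (0 : M) • δ) = 1 := by simpa using r_one hr
theorem r_add' (s t s' t' : M) : r (s + t • δ) + r (s' + t' • δ) = r ((s + s' : M) + (t + t') • δ) := by
  rw [r_add hr]; congr 1; ext <;> simp <;> ring
theorem r_alg (q : ℚ) : algebraMap ℚ (Mi g ℚ) q = r ((q : M) + (0 : M) • δ) := by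
  rw [Algebra.algebraMap_eq_smul_one, ← r_one hr, r_smul hr]; congr 1; ext <;> simp [Rat.smul_def]

include hδ

theorem r_mul' (s t s' t' : M) : r (s + t • δ) * r (s' + t' • δ) =
    r ((s * s' + (δ * δ).re * t * t' : M) + (s * t' + t * s') • δ) := by
  rw [r_mul hr]; congr 1; ext <;> simp [hδ] <;> ring

variable (hψ : ∀ x y, pf (E x) (E y) = Algebra.trace ℚ M (c * (δ * star x * y).re))
include hψ

theorem r_adj (s t : M) : (r (s + t • δ))ᵀ * J (Fin g) ℚ = J (Fin g) ℚ * r (s + (-t) • δ) :=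
  adj_of_pf fun x y => by
    rw [← E.apply_symm_apply x, ← E.apply_symm_apply y, hr, hr, hψ, hψ]
    congr 2; simp [hδ]; ring

variable (hd : (δ * δ).re ≠ 0) (hc : c ≠ 0) (μ : M →+* PadicAlgCl ℓ)
  (ram : ∀ Y : ℍ[M,a,b], ‖μ Y.re‖ ^ 2 ≤ ‖μ (Y * star Y).re‖)
include hd hc ram

theorem emb_quat : ∃ e ≠ 0, e ∈ Submodule.span ℚ_[ℓ]
      (Set.range fun m : M => ((r (m + (0 : M) • δ)).map (↑) : Mi g ℚ_[ℓ])) ∧
    ∀ x, (∀ m : M, pf x ((r (m + (0 : M) • δ) * r ((0 : M) + (1 : M) • δ)).map (↑) *ᵥ x) = 0) →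
      ∀ y, pf x (e *ᵥ y) = 0 := by
  let ρ : M →ₐ[ℚ] Mi g ℚ :=
    { toFun := fun m => r (m + (0 : M) • δ)
      map_one' := r1 hr
      map_mul' := fun s t => by rw [r_mul' hr hδ]; simp
      map_zero' := r0 hr
      map_add' := fun s t => by rw [r_add' hr]; simp
      commutes' := fun q => (r_alg hr q).symm }
  obtain ⟨γ, hγ⟩ : ∃ γ : ℍ[M,a,b] →ₗ[ℚ] ℍ[M,a,b] →ₗ[ℚ] M, ∀ x y, γ x y = c * (δ * star x * y).re :=
    ⟨LinearMap.mk₂ ℚ (fun x y => c * (δ * star x * y).re) (fun x x' y => by simp; ring)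
      (fun q x y => by simp [Rat.smul_def]; ring) (fun x y y' => by simp; ring)
      (fun q x y => by simp [Rat.smul_def]; ring), fun _ _ => rfl⟩
  have sE : ∀ x, E.symm x = ∑ i, x i • E.symm (Pi.single i 1) := fun x => by
    simp only [← map_smul, ← map_sum]; congr 1; funext i; simp [Finset.sum_apply, Pi.single_apply]
  let Γ : Mi g M := fun i j => γ (E.symm (Pi.single i 1)) (E.symm (Pi.single j 1))
  have h1 : ∀ (x : Ix g → ℚ) j, ((fun i => (x i : M)) ᵥ* Γ) j =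
      γ (E.symm x) (E.symm (Pi.single j 1)) := fun x j => by
    rw [sE x]; simp [vecMul, dotProduct, Γ, Rat.smul_def]
  have h2 : ∀ x y : Ix g → ℚ, ((fun i => (x i : M)) ⬝ᵥ Γ *ᵥ fun i => (y i : M)) =
      γ (E.symm x) (E.symm y) := fun x y => by
    rw [dotProduct_mulVec, dotProduct, sE y, map_sum]
    exact Finset.sum_congr rfl fun j _ => by rw [h1, map_smul, Rat.smul_def, mul_comm]
  refine ani_emb (ℓ := ℓ) (ρ := ρ) (Γ := Γ) (fun m i j => ?_) (fun h => ?_) _ μ.toRatAlgHom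
    (c := fun j => (‖μ c‖ * ‖μ (E.symm (Pi.single j 1) * star (E.symm (Pi.single j 1))).re‖ + 1)⁻¹)
    (fun j => by positivity) fun j x => ?_
  · have h3 := hψ (E.symm (Pi.single i 1)) (E.symm (Pi.single j 1) * (m + (0 : M) • δ))
    rw [← hr, E.apply_symm_apply, E.apply_symm_apply, pf, mulVec_mulVec] at h3
    refine Eq.trans (by rw [single_one_dotProduct, mulVec_single_one]; rfl)
      (h3.trans (congrArg _ ?_))
    simp [Γ, hγ]; ring
  · have h3 := h2 (E 1) (E δ)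
    rw [h, zero_mulVec, dotProduct_zero, E.symm_apply_apply, E.symm_apply_apply, hγ, star_one,
      mul_one] at h3
    exact mul_ne_zero hc hd h3.symm
  rw [h1, h2, ← E.apply_symm_apply x, hr, E.symm_apply_apply, E.symm_apply_apply]
  generalize E.symm x = X, E.symm (Pi.single j 1) = Z
  have h3 := ram (δ * star X * Z)
  have e1 : (δ * star X * Z * star (δ * star X * Z)).re =
    -((Z * star Z).re * (δ * star X * (X * ((0 : M) + (1 : M) • δ))).re) := by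
    simp [hδ]; ring
  rw [e1, map_neg, norm_neg, map_mul, norm_mul] at h3
  simp only [hγ, RingHom.toRatAlgHom_apply, map_mul, norm_mul, mul_pow]
  rw [inv_mul_le_iff₀ (by positivity)]
  refine (mul_le_mul_of_nonneg_left h3 (sq_nonneg _)).trans ?_
  generalize (Z * star Z).re = z, (δ * star X * (X * ((0 : M) + (1 : M) • δ))).re = w
  nlinarith [mul_nonneg (norm_nonneg (μ c)) (norm_nonneg (μ w))]

theorem ani_quat {T : ℕ} (hT : 0 < T) : ∃ (N : ℕ) (κ : Type) (_ : Fintype κ) (β : κ → Sp g ℚ),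
    Ani ℓ N β ∧ (∀ k, ∃ s t : M, (β k).1 = r (s + t • δ)) ∧ N.Coprime T := by
  obtain ⟨e, he, hm, an⟩ := emb_quat hr hδ hψ hd hc μ ram
  have mul := r_mul' hr hδ
  have nr : ∀ s t : M, ((s + t • δ) * star (s + t • δ : ℍ[M,a,b])).re = s ^ 2 - (δ * δ).re * t ^ 2 :=
    fun s t => by simp [hδ]; ring
  generalize (δ * δ).re = d at mul nr hd
  let A : Subalgebra ℚ (Mi g ℚ) :=
    { carrier := {x | ∃ s t : M, x = r (s + t • δ)}
      mul_mem' := by rintro _ _ ⟨s, t, rfl⟩ ⟨s', t', rfl⟩; exact ⟨_, _, mul ..⟩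
      add_mem' := by rintro _ _ ⟨s, t, rfl⟩ ⟨s', t', rfl⟩; exact ⟨_, _, r_add' hr ..⟩
      algebraMap_mem' := fun q => ⟨_, _, r_alg hr q⟩ }
  have sk : ∀ t : M, ((r ((d * t * t : M) + (0 : M) • δ)).map (↑) : Mi g ℚ_[ℓ]) ∈
      Submodule.span ℚ_[ℓ] {x | ∃ s ∈ A, Sk s ∧ ∃ n : ℕ, (s ^ n).map (↑) = x} := fun t =>
    Submodule.subset_span ⟨r ((0 : M) + t • δ), ⟨_, _, rfl⟩, by
      rw [Sk, r_adj hr hδ hψ, eq_neg_iff_add_eq_zero, ← mul_add, r_add' hr, neg_add_cancel, add_zero,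
        r0 hr, mul_zero],
      2, by rw [sq, mul, mul_zero, mul_zero, zero_mul, zero_add (_ : M), zero_add (_ : M)]⟩
  refine ani_of (A := A) ?_ ?_ he (Submodule.span_le.2 ?_ hm)
    (fun x hx => an x fun m => hx _ (mul_mem ⟨_, _, rfl⟩ ⟨_, _, rfl⟩)) hT
  · rintro _ ⟨s, t, rfl⟩ h
    have h3 : s ^ 2 - d * t ^ 2 ≠ 0 := fun h3 => by
      have h4 := ram (s + t • δ)
      rw [nr, h3] at h4
      obtain rfl : s = 0 := by simpa [hδ] using h4
      obtain rfl : t = 0 := by simpa [hd] using h3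
      exact h (r0 hr)
    refine IsUnit.of_mul_eq_one
      (r ((s / (s ^ 2 - d * t ^ 2) : M) + (-t / (s ^ 2 - d * t ^ 2)) • δ)) ?_
    rw [mul, ← r1 hr (δ := δ), show s * (s / (s ^ 2 - d * t ^ 2)) + d * t * (-t / (s ^ 2 - d * t ^ 2))
      = 1 by field_simp; ring, show s * (-t / (s ^ 2 - d * t ^ 2)) + t * (s / (s ^ 2 - d * t ^ 2))
      = 0 by ring]
  · rintro _ ⟨s, t, rfl⟩
    exact ⟨_, ⟨_, _, rfl⟩, r_adj hr hδ hψ s t⟩
  · rintro _ ⟨m, rfl⟩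
    have e1 : d * (m / (4 * d) - 1) * (m / (4 * d) - 1) + m =
      d * (m / (4 * d) + 1) * (m / (4 * d) + 1) := by field_simp; ring
    have h3 := sub_mem (sk (m / (4 * d) + 1)) (sk (m / (4 * d) - 1))
    have e2 := r_add' hr (δ := δ) (d * (m / (4 * d) - 1) * (m / (4 * d) - 1)) 0 m 0
    rw [add_zero (0 : M), e1] at e2
    rwa [← e2, Matrix.map_add _ Rat.cast_add, add_sub_cancel_left] at h3

theorem un_quat {T : ℕ} (hT : 0 < T) (hl : ℓ.Coprime T) : ∃ n : ℕ, 2 ≤ n ∧ n.Coprime T ∧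
    ∀ τ ∈ Hg g, (∀ s t : M, Fix τ (r (s + t • δ))) → ∀ (K : Type) [NormedField K]
      [IsUltrametricDist K] (j : ℂ →+* K), ‖(n : K)‖ = 1 → Un j τ n := by
  obtain ⟨N, κ, _, β, H, hb, hM⟩ := ani_quat hr hδ hψ hd hc μ ram hT
  refine ⟨ℓ ^ 2 * N, by nlinarith [hp.out.two_le, H.pos], (hl.pow_left 2).mul_left hM,
    fun τ hτ hF K _ _ j hn => uni g ℓ N κ β H τ hτ (fun k => ?_) K j ?_⟩
  · obtain ⟨s, t, h⟩ := hb k
    exact h ▸ hF s t
  rw [sq, mul_assoc, Nat.cast_mul, norm_mul] at hn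
  exact (IsUltrametricDist.norm_natCast_le_one K _).antisymm (hn.ge.trans
    (mul_le_of_le_one_left (norm_nonneg _) (IsUltrametricDist.norm_natCast_le_one K _)))

end Quat

end Vale.Agent.P022K.GR
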