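import Vale.Agent.P022K.GR.Defs

/-!
# Fourier inversion along a sublattice; the master relation
-/

open Matrix Complex

set_option linter.unusedSectionVars false

noncomputable section

namespace Vale.Agent.P022K.GR

open Vale.Agent.P010MR Vale.Agent.P010M71

variable {g : ℕ} {τ : Mc g}

theorem ci_add (a b : Ix g → ℤ) : ci (a + b) = ci a + ci b := by funext i; simp [ci]
theorem ci_neg (a : Ix g → ℤ) : ci (-a) = -ci a := by funext i; simp [ci]
theorem ci_smul (n : ℤ) (a : Ix g → ℤ) : ci (n • a) = (n : ℂ) • ci a := by funext i; simp [ci]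
theorem ci_zero : ci (0 : Ix g → ℤ) = 0 := by funext i; simp [ci]
theorem ps_neg_left (x y : V g) : ps (-x) y = -ps x y := neg_dotProduct _ _
theorem ps_neg_right (x y : V g) : ps x (-y) = -ps x y := by simp [ps, mulVec_neg]
theorem ps_zero_left (y : V g) : ps 0 y = 0 := zero_dotProduct _
theorem ps_sub_left (x y z : V g) : ps (x - y) z = ps x z - ps y z := sub_dotProduct _ _ _
theorem ps_sub_right (x y z : V g) : ps x (y - z) = ps x y - ps x z := by simp [ps, mulVec_sub]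
theorem ps_sum_right {ι : Type} (s : Finset ι) (x : V g) (y : ι → V g) :
    ps x (∑ i ∈ s, y i) = ∑ i ∈ s, ps x (y i) := by simp [ps, mulVec_sum, dotProduct_sum]

section Box

variable {N : ℕ} [NeZero N]

theorem zv_cast (t : Ix g → ℤ) : ∃ r : Ix g → ℤ, t = zv (fun i => (t i : ZMod N)) + (N : ℤ) • r := by
  have : ∀ i, ∃ r : ℤ, t i - ((t i : ZMod N).val : ℤ) = N * r := fun i =>
    (ZMod.intCast_zmod_eq_zero_iff_dvd _ N).1 (by simp)
  choose r hr using this
  exact ⟨r, funext fun i => by simp [zv, ← hr i]⟩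

theorem zv_zero : zv (0 : Ix g → ZMod N) = 0 := by funext i; simp [zv]

theorem sum_shift {A : Type} [AddCommMonoid A] (P : (Ix g → ℤ) → A)
    (hP : ∀ l r, P (l + (N : ℤ) • r) = P l) (t : Ix g → ℤ) :
    ∑ s : Ix g → ZMod N, P (zv s + t) = ∑ s : Ix g → ZMod N, P (zv s) := by
  refine Fintype.sum_equiv (Equiv.addRight fun i => (t i : ZMod N)) _ _ fun s => ?_
  obtain ⟨r, hr⟩ := zv_cast (N := N) (zv s + t)
  rw [hr, hP]
  congr 2
  funext i
  simp [zv]

theorem ee_eq_one {a : ℤ} (h : ee (a / N) = 1) : (N : ℤ) ∣ a := by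
  obtain ⟨n, hn⟩ := exp_eq_one_iff.1 h
  have h0 : (N : ℂ) ≠ 0 := Nat.cast_ne_zero.2 (NeZero.ne N)
  have h1 : (2 * Real.pi * I : ℂ) ≠ 0 := two_pi_I_ne_zero
  have h2 : (a : ℂ) / N = n := mul_left_cancel₀ h1 (hn.trans (mul_comm _ _))
  refine ⟨n, ?_⟩
  rw [div_eq_iff h0, mul_comm] at h2
  exact_mod_cast h2

theorem pf_single (i : Ix g) : ∃ u : Ix g → ℤ, ∀ t : Ix g → ℤ, pf u t = t i := by
  rcases i with i | i
  · exact ⟨Pi.single (.inr i) 1, fun t => by
      simp [pf, J, mulVec, dotProduct, Fintype.sum_sum_type, fromBlocks, one_apply,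
        Pi.single_apply]⟩
  · exact ⟨Pi.single (.inl i) (-1), fun t => by
      simp [pf, J, mulVec, dotProduct, Fintype.sum_sum_type, fromBlocks, one_apply,
        Pi.single_apply]⟩

theorem char_sum (t : Ix g → ZMod N) : ∑ s : Ix g → ZMod N, ee (ps (ci (zv s)) (ci (zv t)) / N) =
    if t = 0 then (N : ℂ) ^ (2 * g) else 0 := by
  have h0 : (N : ℂ) ≠ 0 := Nat.cast_ne_zero.2 (NeZero.ne N)
  split_ifs with h
  · simp [h, zv_zero, ci_zero, ps, ee_zero, two_mul]
  · obtain ⟨i, hi⟩ := Function.ne_iff.1 h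
    obtain ⟨u, hu⟩ := pf_single i
    have h1 := sum_shift (N := N) (fun l => ee (ps (ci l) (ci (zv t)) / N)) (fun l r =>
      ee_congr (pf r (zv t)) (by rw [ci_add, ci_smul, ps_add_left, ps_smul_left, ← ps_ci]; push_cast; field_simp)) u
    simp only [ci_add, ps_add_left, add_div, ee_add, ← Finset.sum_mul] at h1
    rw [ps_ci u, hu] at h1
    by_contra h2
    refine hi ((ZMod.val_eq_zero _).1 (Nat.eq_zero_of_dvd_of_lt ?_ (ZMod.val_lt (t i))))
    exact Int.natCast_dvd_natCast.1 (ee_eq_one (mul_left_cancel₀ h2 (h1.trans (mul_one _).symm)))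

end Box

/-! ### One variable -/

/-- holomorphic sections on the universal cover -/
def HF (τ : Mc g) : Submodule ℂ (V g → ℂ) where
  carrier := {s | Differentiable ℂ s ∧
    ∀ u v, s (v + per τ *ᵥ u) = ee (-(ps (per τ *ᵥ u) v / 2)) * s v}
  add_mem' := fun {s t} hs ht => ⟨hs.1.add ht.1,
    fun l v => by rw [Pi.add_apply, Pi.add_apply, hs.2, ht.2]; ring⟩
  zero_mem' := ⟨differentiable_const _, fun _ _ => by simp⟩
  smul_mem' := fun c s hs => ⟨hs.1.const_smul c,
    fun l v => by rw [Pi.smul_apply, Pi.smul_apply, hs.2, smul_eq_mul, smul_eq_mul]; ring⟩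

theorem diff_ee {E : Type} [NormedAddCommGroup E] [NormedSpace ℂ E] {f : E → ℂ}
    (hf : Differentiable ℂ f) : Differentiable ℂ fun x => ee (f x) := (hf.const_mul _).cexp

theorem diff_ps (a : V g) : Differentiable ℂ (ps a) := by
  simp only [funext (ps_eq a)]; fun_prop

theorem HF.U {f : V g → ℂ} (hf : f ∈ HF τ) (a : V g) : U a f ∈ HF τ := by
  have h0 : Differentiable ℂ fun v => -(ps a v / 2) := by have := diff_ps a; fun_prop
  refine ⟨(diff_ee h0).mul (hf.1.comp (by fun_prop)), fun u v => ?_⟩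
  rw [GR.U, GR.U, add_right_comm, hf.2, ← mul_assoc, ← mul_assoc, ← ee_add, ← ee_add, ps_add_right,
    ps_add_right, ps_swap a (per τ *ᵥ u)]
  congr 2; ring

/-- the lattice acts -/
def W (l : Ix g → ℤ) (f : V g → ℂ) : V g → ℂ := ee (-(Q0 (ci l) / 2)) • U (ci l) f

theorem U_smul (a : V g) (c : ℂ) (f : V g → ℂ) : U a (c • f) = c • U a f := by
  funext v; simp only [U, Pi.smul_apply, smul_eq_mul]; ring

theorem U_sum {ι : Type} (s : Finset ι) (a : V g) (f : ι → V g → ℂ) :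
    U a (∑ i ∈ s, f i) = ∑ i ∈ s, U a (f i) := by
  funext v; simp only [U, Finset.sum_apply, Finset.mul_sum]

theorem W_W (l m : Ix g → ℤ) (f : V g → ℂ) : W l (W m f) = W (l + m) f := by
  rw [W, W, W, U_smul, U_U, smul_smul, smul_smul, ← ee_add, ← ee_add, ci_add, Q0_add]
  congr 1
  refine ee_congr (pf l m + l ∘ .inl ⬝ᵥ m ∘ .inr) ?_
  have : ci l ∘ .inl ⬝ᵥ ci m ∘ .inr = ((l ∘ .inl ⬝ᵥ m ∘ .inr : ℤ) : ℂ) := by simp [ci, dotProduct]
  rw [this, ps_ci]; push_cast; ring

theorem W_U (l : Ix g → ℤ) (a : V g) (f : V g → ℂ) : W l (U a f) = ee (ps (ci l) a) • U a (W l f) := by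
  rw [W, W, U_smul, U_U, U_U, smul_smul, smul_smul, smul_smul, ← ee_add, ← ee_add, ← ee_add,
    add_comm a, ps_swap a]
  congr 2; ring

theorem mem_TP_one {f : V g → ℂ} : f ∈ TP τ 1 ↔ f ∈ HF τ ∧ ∀ l, W l f = f := by
  have e : ∀ z : ℂ, ((1 : ℕ) : ℂ) / 2 * z = z / 2 := fun z => by push_cast; ring
  refine ⟨fun h => ⟨⟨h.1, fun u v => by rw [h.2.2, e]⟩, fun l => ?_⟩,
    fun h => ⟨h.1.1, fun l v => ?_, fun u v => by rw [h.1.2, e]⟩⟩
  · rw [W, U_ci h, smul_smul, ← ee_add, neg_add_cancel, ee_zero, one_smul]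
  · conv_rhs => rw [← h.2 l]
    rw [W, Pi.smul_apply, U, smul_eq_mul, ← mul_assoc, ← mul_assoc, ← ee_add, ← ee_add, e,
      show ∀ a b : ℂ, (a + b) / 2 + -(a / 2) + -(b / 2) = 0 from fun a b => by ring, ee_zero, one_mul]

/-- Fourier inversion -/
theorem fourier (hτ : τ ∈ Hg g) (r : ℕ) [NeZero r] {f : V g → ℂ} (hf : f ∈ HF τ)
    (h : ∀ l, W ((r : ℤ) • l) f = f) : ∃ c : (Ix g → ZMod r) → ℂ,
      (∀ a, c a • th τ = ∑ s : Ix g → ZMod r, W (zv s) (U (-((r : ℂ)⁻¹ • ci (zv a))) f)) ∧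
      (r : ℂ) ^ (2 * g) • f = ∑ a, c a • U ((r : ℂ)⁻¹ • ci (zv a)) (th τ) := by
  have h0 : (r : ℂ) ≠ 0 := Nat.cast_ne_zero.2 (NeZero.ne r)
  have h1 : ∀ a : Ix g → ZMod r,
      ∑ s : Ix g → ZMod r, W (zv s) (U (-((r : ℂ)⁻¹ • ci (zv a))) f) ∈ TP τ 1 := fun a => by
    refine mem_TP_one.2 ⟨Submodule.sum_mem _ fun s _ =>
      Submodule.smul_mem _ _ (HF.U (HF.U hf _) _), fun l => ?_⟩
    have h2 := sum_shift (N := r) (fun m => W m (U (-((r : ℂ)⁻¹ • ci (zv a))) f)) (fun m t => by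
      rw [← W_W, W_U (_ • t), h, ee_congr (b := 0) (-pf t (zv a)), ee_zero, one_smul]
      rw [ci_smul, ps_neg_right, ps_smul_left, ps_smul_right, ps_ci]
      push_cast; field_simp; ring) l
    rw [W, U_sum, Finset.smul_sum, ← h2]
    exact Finset.sum_congr rfl fun s _ => by rw [add_comm, ← W_W]; rfl
  choose c hc using fun a => th_uniq hτ (h1 a)
  refine ⟨c, fun a => (hc a).symm, ?_⟩
  have h3 : ∀ a s : Ix g → ZMod r, U ((r : ℂ)⁻¹ • ci (zv a))
      (W (zv s) (U (-((r : ℂ)⁻¹ • ci (zv a))) f)) =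
      ee (ps (ci (zv a)) (ci (zv s)) / r) • W (zv s) f := fun a s => by
    rw [W_U, U_smul, U_U, add_neg_cancel, U_zero, smul_smul, ← ee_add, ps_neg_right, ps_neg_right,
      ps_self, ps_smul_right, ps_swap (ci (zv s))]
    congr 2; ring
  simp only [← U_smul, ← hc, U_sum, h3]
  rw [Finset.sum_comm]
  simp only [← Finset.sum_smul, char_sum, ite_smul, zero_smul, Finset.sum_ite_eq',
    Finset.mem_univ, if_true, zv_zero]
  rw [W, ci_zero, U_zero]
  simp [Q0, ee_zero]

theorem span (g : ℕ) : SPAN g := by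
  intro τ hτ r _
  have h0 : (r : ℂ) ≠ 0 := Nat.cast_ne_zero.2 (NeZero.ne r)
  refine ⟨fun l => ?_, fun f hf => ?_⟩
  · have h1 := HF.U (mem_TP_one.1 (th_mem hτ)).1 ((r : ℂ)⁻¹ • ci l)
    refine ⟨h1.1.comp (by fun_prop), fun m v => ?_, fun u v => ?_⟩
    · have h2 := congrFun (W_U ((r : ℤ) • m) ((r : ℂ)⁻¹ • ci l) (th τ)) ((r : ℂ) • v)
      rw [(mem_TP_one.1 (th_mem hτ)).2, ee_congr (b := 0) (pf m l) (by
        rw [ci_smul, ps_smul_left, ps_smul_right, ps_ci]; push_cast; field_simp; ring), ee_zero,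
        one_smul, W, Pi.smul_apply, U, ci_smul, Int.cast_natCast, ← smul_add] at h2
      rw [zz, zz, ← h2, smul_eq_mul, ← mul_assoc, ← mul_assoc, ← ee_add, ← ee_add, Q0_smul,
        ps_smul_left, ps_smul_right, ee_congr (b := 0) 0 (by push_cast; ring), ee_zero, one_mul]
    · rw [zz, zz, smul_add, ← mulVec_smul, h1.2, mulVec_smul, ps_smul_left, ps_smul_right]
      congr 2; push_cast; ring
  · have e : ∀ v : V g, (r : ℂ)⁻¹ • (r : ℂ) • v = v := fun v => inv_smul_smul₀ h0 v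
    obtain ⟨c, -, hc⟩ := fourier hτ r (f := fun v => f ((r : ℂ)⁻¹ • v))
      ⟨hf.1.comp (by fun_prop), fun u v => by
        beta_reduce
        rw [smul_add, ← mulVec_smul, hf.2.2, mulVec_smul, ps_smul_left, ps_smul_right]
        congr 2; push_cast; field_simp⟩ fun l => funext fun v => by
        rw [W, Pi.smul_apply, U, ci_smul, Int.cast_natCast, smul_add, e, hf.2.1, smul_eq_mul,
          ← mul_assoc, ← mul_assoc, ← ee_add, ← ee_add, Q0_smul, ps_smul_left, ps_smul_right,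
          ee_congr (b := 0) 0 (by push_cast; field_simp; ring), ee_zero, one_mul]
    refine ⟨fun s => ((r : ℂ) ^ (2 * g))⁻¹ * c s, funext fun v => ?_⟩
    have h3 := congrFun hc ((r : ℂ) • v)
    simp only [Pi.smul_apply, e, smul_eq_mul, Finset.sum_apply] at h3
    simp only [Finset.sum_apply, Pi.smul_apply, smul_eq_mul, mul_assoc, ← Finset.mul_sum, zz, ← h3]
    rw [inv_mul_cancel_left₀ (pow_ne_zero _ h0)]

/-! ### Several variables -/

section Many

variable {ι : Type} [Fintype ι]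

/-- the sum of the forms -/
def pm (x y : ι → V g) : ℂ := ∑ i, ps (x i) (y i)
/-- the translation operator -/
def Um (a : ι → V g) (F : (ι → V g) → ℂ) (x : ι → V g) : ℂ := ee (-(pm a x / 2)) * F (x + a)
/-- the product of the theta functions -/
def Th (τ : Mc g) (x : ι → V g) : ℂ := ∏ i, th τ (x i)

theorem pm_add_left (x y z : ι → V g) : pm (x + y) z = pm x z + pm y z := by
  simp [pm, ps_add_left, Finset.sum_add_distrib]
theorem pm_add_right (x y z : ι → V g) : pm x (y + z) = pm x y + pm x z := by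
  simp [pm, ps_add_right, Finset.sum_add_distrib]
theorem pm_swap (x y : ι → V g) : pm x y = -pm y x := by
  rw [pm, pm, ← Finset.sum_neg_distrib]
  exact Finset.sum_congr rfl fun i _ => ps_swap _ _

theorem Um_Um (a b : ι → V g) (F : (ι → V g) → ℂ) (x : ι → V g) :
    Um a (Um b F) x = ee (pm a b / 2) * Um (a + b) F x := by
  rw [Um, Um, Um, ← mul_assoc, ← mul_assoc, ← ee_add, ← ee_add, add_assoc x, pm_add_right,
    pm_add_left, pm_swap b a]
  congr 2; ring

theorem Um_Th (a x : ι → V g) : Um a (Th τ) x = ∏ i, U (a i) (th τ) (x i) := by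
  simp only [Um, Th, U, Finset.prod_mul_distrib, ← ee_sum, pm, Finset.sum_div,
    Finset.sum_neg_distrib, Pi.add_apply]

theorem Um_ci (hτ : τ ∈ Hg g) (l : ι → Ix g → ℤ) (a x : ι → V g) :
    Um (a + fun i => ci (l i)) (Th τ) x =
      ee ((∑ i, Q0 (ci (l i))) / 2 - pm a (fun i => ci (l i)) / 2) * Um a (Th τ) x := by
  have h1 : Um (fun i => ci (l i)) (Th τ) = fun y => ee ((∑ i, Q0 (ci (l i))) / 2) * Th τ y :=
    funext fun y => by
      simp only [Um_Th, U_ci (th_mem hτ), Pi.smul_apply, smul_eq_mul, Finset.prod_mul_distrib,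
        ← ee_sum, Finset.sum_div, Th]
  have h2 := Um_Um a (fun i => ci (l i)) (Th τ) x
  rw [h1] at h2
  refine mul_left_cancel₀ (ee_ne (pm a (fun i => ci (l i)) / 2)) ?_
  rw [← h2, ← mul_assoc, ← ee_add, add_sub_cancel, Um, Um]
  ring

open Classical in
theorem prod_uniq (hτ : τ ∈ Hg g) {F : (ι → V g) → ℂ}
    (hF : ∀ x i, (fun v => F (Function.update x i v)) ∈ TP τ 1) : ∃ κ, ∀ x, κ * Th τ x = F x := by
  obtain ⟨a, ha⟩ := Function.ne_iff.1 (th_ne hτ)
  have ha : th τ a ≠ 0 := ha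
  have key : ∀ (x : ι → V g) (s : Finset ι), F (s.piecewise x fun _ => a) * th τ a ^ s.card =
      F (fun _ => a) * ∏ i ∈ s, th τ (x i) := fun x s => by
    induction s using Finset.induction_on with
    | empty => simp
    | insert i s hi ih =>
      obtain ⟨c, hc⟩ := th_uniq hτ (hF (s.piecewise x fun _ => a) i)
      have h1 := congrFun hc (x i)
      have h2 := congrFun hc a
      rw [Function.update_eq_self_iff.2 (Finset.piecewise_eq_of_notMem _ _ _ hi).symm] at h2
      rw [Finset.piecewise_insert, Finset.card_insert_of_notMem hi, Finset.prod_insert hi, h1,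
        mul_left_comm, ← ih, h2]
      simp only [Pi.smul_apply, smul_eq_mul]; ring
  refine ⟨F (fun _ => a) / th τ a ^ Fintype.card ι, fun x => ?_⟩
  have := key x Finset.univ
  rw [Finset.piecewise_univ, Finset.card_univ] at this
  rw [div_mul_eq_mul_div, div_eq_iff (pow_ne_zero _ ha), this, Th]

variable {q : ι → ℤ} {N : ℕ} [NeZero N]

/-- `q · x` -/
def dq (q : ι → ℤ) (x : ι → V g) : V g := ∑ k, (q k : ℂ) • x k
/-- `q s / N` -/
def vq (q : ι → ℤ) (N : ℕ) (s : V g) (i : ι) : V g := ((q i : ℂ) / N) • s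

omit [NeZero N] in
theorem Tq_eq (x : ι → V g) : Tq q N x = vq q N (dq q x) - x := rfl

theorem dq_add (x y : ι → V g) : dq q (x + y) = dq q x + dq q y := by
  simp [dq, Finset.sum_add_distrib]
theorem dq_sub (x y : ι → V g) : dq q (x - y) = dq q x - dq q y := by
  simp [dq, smul_sub]
omit [Fintype ι] [NeZero N] in
theorem vq_add (x y : V g) : vq q N (x + y) = vq q N x + vq q N y := by
  funext i; simp [vq]
omit [NeZero N] in
theorem pm_vq (s : V g) (y : ι → V g) : pm (vq q N s) y = ps s (dq q y) / N := by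
  rw [pm, dq, ps_sum_right, Finset.sum_div]
  exact Finset.sum_congr rfl fun i _ => by rw [vq, ps_smul_left, ps_smul_right]; ring
omit [NeZero N] in
theorem Tq_add (x y : ι → V g) : Tq q N (x + y) = Tq q N x + Tq q N y := by
  rw [Tq_eq, Tq_eq, Tq_eq, dq_add, vq_add]; abel

variable (hq : ∑ i, q i ^ 2 = 2 * N)
include hq

theorem dq_vq (s : V g) : dq q (vq q N s) = s + s := by
  have h0 : (N : ℂ) ≠ 0 := Nat.cast_ne_zero.2 (NeZero.ne N)
  have h1 : ∑ i, (q i : ℂ) ^ 2 = 2 * N := by exact_mod_cast hq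
  simp only [dq, vq, smul_smul, ← Finset.sum_smul, ← mul_div_assoc, ← Finset.sum_div, ← sq, h1]
  rw [mul_div_cancel_right₀ _ h0, two_smul]

theorem dq_Tq (x : ι → V g) : dq q (Tq q N x) = dq q x := by
  rw [Tq_eq, dq_sub, dq_vq hq, add_sub_cancel_right]

theorem Tq_Tq (x : ι → V g) : Tq q N (Tq q N x) = x := by
  rw [Tq_eq, dq_Tq hq, Tq_eq, sub_sub_cancel]

theorem Tq_vq (s : V g) : Tq q N (vq q N s) = vq q N s := by
  rw [Tq_eq, dq_vq hq, vq_add, add_sub_cancel_right]

theorem pm_Tq (x y : ι → V g) : pm (Tq q N x) (Tq q N y) = pm x y := by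
  have h1 : ∀ a b c : ι → V g, pm (a - b) c = pm a c - pm b c := fun a b c => by
    simp [pm, ps_sub_left]
  rw [Tq_eq x, h1, pm_vq, dq_Tq hq, pm_swap x, Tq_eq, h1, pm_vq, ps_swap (dq q y), pm_swap y]
  ring

theorem Um_Tq (a : ι → V g) (F : (ι → V g) → ℂ) (x : ι → V g) :
    Um a (fun y => F (Tq q N y)) x = Um (Tq q N a) F (Tq q N x) := by
  rw [Um, Um, pm_Tq hq, Tq_add]

theorem Um_per (hτ : τ ∈ Hg g) (l r : Ix g → ℤ) (x : ι → V g) :
    Um (vq q N (ci (l + (N : ℤ) • r))) (Th τ) x = Um (vq q N (ci l)) (Th τ) x := by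
  have h0 : (N : ℂ) ≠ 0 := Nat.cast_ne_zero.2 (NeZero.ne N)
  have h1 : ∑ i, (q i : ℂ) ^ 2 = 2 * N := by exact_mod_cast hq
  have e : vq q N (ci ((N : ℤ) • r)) = fun i => ci (q i • r) := funext fun i => by
    rw [vq, ci_smul, ci_smul, smul_smul, Int.cast_natCast, div_mul_cancel₀ _ h0]
  rw [ci_add, vq_add, e, Um_ci hτ, ← e, pm_vq, dq_vq hq, ee_congr (b := 0)
    (N * (r ∘ .inl ⬝ᵥ r ∘ .inr) - pf l r), ee_zero, one_mul]
  simp only [ci_smul, Q0_smul, ← Finset.sum_mul, h1, ps_add_right, ps_smul_right, ps_ci, Q0_ci]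
  push_cast; field_simp; ring

theorem mr0 (hτ : τ ∈ Hg g) : ∃ κ : ℂ, κ ^ 2 = N ^ (2 * g) ∧ ∀ x : ι → V g,
    κ * Th τ x = ∑ s : Ix g → ZMod N, Um (vq q N (ci (zv s))) (Th τ) (Tq q N x) := by
  classical
  have h0 : (N : ℂ) ≠ 0 := Nat.cast_ne_zero.2 (NeZero.ne N)
  obtain ⟨κ, hκ⟩ := prod_uniq hτ (F := fun x => ∑ s : Ix g → ZMod N,
      Um (vq q N (ci (zv s))) (Th τ) (Tq q N x)) fun x i => by
    have hU := fun a => HF.U (mem_TP_one.1 (th_mem hτ)).1 a
    have up : ∀ v a, Function.update x i (v + a) = Function.update x i v + Pi.single i a :=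
      fun v a => funext fun k => by by_cases h : k = i <;> simp [h]
    have pms : ∀ a v, pm (Pi.single i a) (Function.update x i v) = ps a v := fun a v => by
      rw [pm, Finset.sum_eq_single i (fun k _ h => by simp [h, ps_zero_left]) (by simp)]; simp
    have dqs : ∀ a : V g, dq q (Pi.single i a) = (q i : ℂ) • a := fun a => by
      rw [dq, Finset.sum_eq_single i (fun k _ h => by simp [h]) (by simp)]; simp
    refine ⟨?_, fun l v => ?_, fun u v => ?_⟩
    · simp only [Um_Th]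
      refine Differentiable.fun_sum fun s _ => P010MTh.diff_prod _ fun k _ => (hU _).1.comp ?_
      have hk : ∀ k, Differentiable ℂ fun v : V g => Function.update x i v k := fun k => by
        simp only [Function.update_apply]; split_ifs <;> fun_prop
      exact ((Differentiable.fun_sum fun k _ => (hk k).const_smul (q k : ℂ)).const_smul
        ((q k : ℂ) / N)).sub (hk k)
    · have h2 := sum_shift (N := N) (fun m => Um (vq q N (ci m)) (Th τ)
        (Tq q N (Function.update x i v))) (fun m t => Um_per hq hτ m t _) (q i • l)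
      beta_reduce
      rw [← h2, Finset.mul_sum]
      refine Finset.sum_congr rfl fun s _ => ?_
      have h3 := Um_Tq hq (Pi.single i (ci l)) (Um (vq q N (ci (zv s))) (Th τ))
        (Function.update x i v)
      have e : Tq q N (Pi.single i (ci l)) + vq q N (ci (zv s)) =
          vq q N (ci (zv s + q i • l)) + fun k => ci (Pi.single (M := fun _ => Ix g → ℤ) i (-l) k) := by
        rw [Tq_eq, dqs, ci_add, vq_add, ci_smul]
        funext k
        by_cases h : k = i <;> simp [h, ci_neg, ci_zero] <;> abel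
      have e2 : (fun k => ci (Pi.single (M := fun _ => Ix g → ℤ) i (-l) k)) =
          Pi.single i (-ci l) := funext fun k => by by_cases h : k = i <;> simp [h, ci_neg, ci_zero]
      rw [Um_Um, e, Um_ci hτ, Um, pms, ← up, e2, pm_vq, dqs, pm_swap, pm_vq, dq_Tq hq, dqs,
        Finset.sum_eq_single i (fun k _ h => by simp [h, ci_zero, Q0]) (by simp)] at h3
      refine mul_left_cancel₀ (ee_ne (-(ps (ci l) v / 2))) ?_
      rw [h3, ← mul_assoc, ← mul_assoc, ← ee_add, ← ee_add]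
      congr 2
      simp only [Pi.single_eq_same, ci_add, ci_smul, ci_neg, ps_add_left, ps_smul_left,
        ps_smul_right, ps_self, ← neg_one_smul ℂ (ci l), Q0_smul]
      push_cast; ring
    · beta_reduce
      rw [Finset.mul_sum]
      refine Finset.sum_congr rfl fun s _ => ?_
      have e : ∀ k, Tq q N (Pi.single i (per τ *ᵥ u)) k =
          per τ *ᵥ (((q k : ℂ) / N * q i - if k = i then 1 else 0) • u) := fun k => by
        rw [Tq_eq, dqs, mulVec_smul, sub_smul, Pi.sub_apply, vq, smul_smul]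
        by_cases h : k = i <;> simp [h]
      rw [up, Tq_add, Um_Th, Um_Th, ← pms, ← pm_Tq hq, pm, Finset.mul_sum, ← Finset.sum_neg_distrib,
        ee_sum, ← Finset.prod_mul_distrib]
      refine Finset.prod_congr rfl fun k _ => ?_
      rw [Pi.add_apply, e, (hU _).2]
      congr 2; push_cast; ring
  refine ⟨κ, ?_, hκ⟩
  obtain ⟨a, ha⟩ := Function.ne_iff.1 (th_ne hτ)
  have ha : Th τ (fun _ : ι => a) ≠ 0 := Finset.prod_ne_zero_iff.2 fun _ _ => ha
  refine mul_right_cancel₀ ha ?_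
  generalize (fun _ : ι => a) = x
  have h1 : ∀ s : Ix g → ZMod N, κ * Um (vq q N (ci (zv s))) (Th τ) (Tq q N x) =
      ∑ t : Ix g → ZMod N, ee (ps (ci (zv s)) (ci (zv t)) / N) * Um (vq q N (ci (zv t))) (Th τ) x :=
    fun s => by
    have h2 := sum_shift (N := N) (fun m => ee (ps (ci (zv s)) (ci m) / N) *
        Um (vq q N (ci m)) (Th τ) x) (fun m t => by
      rw [Um_per hq hτ, ee_congr (b := ps (ci (zv s)) (ci m) / N) (pf (zv s) t)]
      rw [ci_add, ci_smul, ps_add_right, ps_smul_right, ← ps_ci]; push_cast; field_simp) (zv s)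
    rw [← h2, Um, mul_left_comm, hκ, Finset.mul_sum]
    refine Finset.sum_congr rfl fun t _ => ?_
    have h3 := Um_Tq hq (vq q N (ci (zv s))) (Um (vq q N (ci (zv t))) (Th τ)) (Tq q N x)
    rw [Um, Tq_vq hq, Tq_Tq hq, Um_Um, pm_vq _ (vq _ _ _), dq_vq hq] at h3
    rw [h3, ci_add, vq_add, add_comm (vq q N (ci (zv t))), ps_add_right, ps_add_right, ps_self]
    congr 2; ring
  rw [sq, mul_assoc, hκ, Finset.mul_sum]
  simp only [h1]
  rw [Finset.sum_comm]
  simp only [← Finset.sum_mul, char_sum, ite_mul, zero_mul, Finset.sum_ite_eq', Finset.mem_univ,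
    if_true, zv_zero, ci_zero]
  have e : vq q N (0 : V g) = 0 := funext fun i => smul_zero _
  simp [e, Um, pm, ps_zero_left, ee_zero]

end Many

theorem mr (g : ℕ) : MR g := by
  intro τ hτ ι _ q N _ hq
  obtain ⟨κ, h1, h2⟩ := mr0 hq hτ
  refine ⟨κ, h1, fun v w => ?_⟩
  rw [← Um_Th, Um, mul_left_comm, h2, Finset.mul_sum]
  refine Finset.sum_congr rfl fun s _ => ?_
  have h3 := Um_Tq hq v (Um (vq q N (ci (zv s))) (Th τ)) w
  rw [Um, Um_Um, pm_swap (Tq q N v), pm_vq, dq_Tq hq, ps_swap (ci _)] at h3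
  rw [h3, Um_Th]
  congr 2
  rw [dq]; ring

end Vale.Agent.P022K.GR
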