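import Vale.Agent.P022K.GR.Alg
import Vale.Agent.P022K.GR.Mr
import Mathlib.Analysis.SpecialFunctions.Log.Basic

/-!
# The size function of a theta function with many endomorphisms is constant up to bounded torsion
-/

open Matrix Filter Topology

set_option linter.unusedVariables false

noncomputable section

namespace Vale.Agent.P022K.GR

open Vale.Agent.P010MR

variable {g : ℕ}

/-- rational points -/
abbrev Gq (g : ℕ) := Ix g → ℚ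

/-- the reflection with a shift -/
def tq {ι : Type} [Fintype ι] (q : ι → ℤ) (N : ℕ) (w : ι → Gq g) (s : Ix g → ℤ) (i : ι) : Gq g :=
  ((q i : ℚ) / N) • (∑ k, (q k : ℚ) • w k + qi s) - w i

/-- periodic -/
def Per (f : Gq g → ℝ) : Prop := ∀ x l, f (x + qi l) = f x

/-- the inequality given by the master relation -/
def Rel (ℓ : ℕ) (f : Gq g → ℝ) : Prop := ∀ (ι : Type) [Fintype ι] (q : ι → ℤ) (k : ℕ),
  ∑ i, q i ^ 2 = 2 * (ℓ ^ k : ℕ) → ∀ w : ι → Gq g, ∃ s, ∏ i, f (w i) ≤ ∏ i, f (tq q (ℓ ^ k) w s i)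

theorem ex_max {N : ℕ} (hN : 0 < N) (P : (Ix g → ℤ) → ℝ) (hP : ∀ l r, P (l + (N : ℤ) • r) = P l) :
    ∃ l0, ∀ l, P l ≤ P l0 := by
  have : NeZero N := ⟨hN.ne'⟩
  obtain ⟨s, hs⟩ := Finite.exists_max fun s : Ix g → ZMod N => P (zv s)
  refine ⟨zv s, fun l => ?_⟩
  obtain ⟨r, hr⟩ := zv_cast (N := N) l
  rw [hr, hP]
  exact hs _

theorem inv_qi {N : ℕ} (hN : 0 < N) (l r : Ix g → ℤ) :
    (N : ℚ)⁻¹ • qi (l + (N : ℤ) • r) = (N : ℚ)⁻¹ • qi l + qi r := by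
  rw [qi_add, qi_smul, smul_add, Int.cast_natCast, inv_smul_smul₀ (Nat.cast_ne_zero.2 hN.ne')]

theorem inv_mul_qi {N : ℕ} {D : ℕ} (hD : 0 < D) (l : Ix g → ℤ) :
    (N : ℚ)⁻¹ • qi l = ((N * D : ℕ) : ℚ)⁻¹ • qi ((D : ℤ) • l) := by
  have : (D : ℚ) ≠ 0 := Nat.cast_ne_zero.2 hD.ne'
  rw [qi_smul, smul_smul, Nat.cast_mul, mul_inv, Int.cast_natCast, inv_mul_cancel_right₀ this]

theorem ex_den (x : Gq g) : ∃ (D : ℕ) (l : Ix g → ℤ), 0 < D ∧ x = (D : ℚ)⁻¹ • qi l := by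
  obtain ⟨⟨D, hD⟩, h⟩ := IsLocalization.exist_integer_multiples_of_finite (nonZeroDivisors ℤ) x
  choose l hl using h
  have h0 : D ≠ 0 := nonZeroDivisors.ne_zero hD
  refine ⟨D.natAbs * D.natAbs, D • l, by positivity, funext fun i => ?_⟩
  have h1 : (l i : ℚ) = D * x i := by simpa using hl i
  have h2 : ((D.natAbs * D.natAbs : ℕ) : ℚ) = D * D := by
    rw [← Int.cast_natCast, Int.natAbs_mul_self, Int.cast_mul]
  have h3 : (D : ℚ) ≠ 0 := Int.cast_ne_zero.2 h0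
  simp only [h2, Pi.smul_apply, qi, smul_eq_mul, Int.cast_mul, h1]
  field_simp

section Max

variable {f : Gq g → ℝ} {N ℓ : ℕ}

theorem Per.max (hf : Per f) (hN : 0 < N) (x : Gq g) :
    ∃ l0, ∀ l, f (x + (N : ℚ)⁻¹ • qi l) ≤ f (x + (N : ℚ)⁻¹ • qi l0) :=
  ex_max hN _ fun l r => by rw [inv_qi hN, ← add_assoc, hf]

/-- the maximum over a coset -/
def mx (f : Gq g → ℝ) (N : ℕ) (x : Gq g) : ℝ := ⨆ l, f (x + (N : ℚ)⁻¹ • qi l)

theorem Per.le_mx (hf : Per f) (hN : 0 < N) (x : Gq g) (l : Ix g → ℤ) :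
    f (x + (N : ℚ)⁻¹ • qi l) ≤ mx f N x := by
  obtain ⟨l0, h⟩ := hf.max hN x
  exact le_ciSup ⟨_, Set.forall_mem_range.2 h⟩ l

theorem Per.ex_mx (hf : Per f) (hN : 0 < N) (x : Gq g) :
    ∃ l, mx f N x = f (x + (N : ℚ)⁻¹ • qi l) := by
  obtain ⟨l0, h⟩ := hf.max hN x
  exact ⟨l0, (ciSup_le h).antisymm (hf.le_mx hN x l0)⟩

theorem Rel.four (h : Rel ℓ f) (hl : 0 < ℓ) {a b : ℕ} (hab : a + b + 2 = 2 * ℓ) (x x' y : Gq g) :
    ∃ s c, c = (ℓ : ℚ)⁻¹ • ((a : ℚ) • x + (b : ℚ) • x' + qi s) ∧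
      f x ^ a * (f x' ^ b * (f y * f (-y))) ≤
        f (c - x) ^ a * (f (c - x') ^ b * (f (c - y) * f (c + y))) := by
  obtain ⟨s, hs⟩ := h (Fin a ⊕ Fin b ⊕ Bool) (fun _ => 1) 1 (by simp; omega)
    (Sum.elim (fun _ => x) (Sum.elim (fun _ => x') fun t => cond t y (-y)))
  refine ⟨s, _, rfl, ?_⟩
  simpa [tq, Fintype.sum_sum_type, Fintype.prod_sum_type, Nat.cast_smul_eq_nsmul] using hs

theorem Rel.two (h : Rel ℓ f) (hl : 0 < ℓ) (z x : Gq g) : ∃ s, f z * f x ^ ℓ ^ 2 ≤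
    f ((ℓ : ℚ) • x + (ℓ : ℚ)⁻¹ • qi s) * f ((ℓ : ℚ)⁻¹ • (z + (ℓ : ℚ)⁻¹ • qi s)) ^ ℓ ^ 2 := by
  have h0 : (ℓ : ℚ) ≠ 0 := Nat.cast_ne_zero.2 hl.ne'
  obtain ⟨s, hs⟩ := h (Option (Fin (ℓ ^ 2))) (fun i => i.elim ℓ fun _ => 1) 2
    (by simp [Fintype.sum_option]; ring) fun i => i.elim z fun _ => x
  refine ⟨s, ?_⟩
  simp only [Fintype.prod_option, Option.elim, Finset.prod_const, Finset.card_univ,
    Fintype.card_fin, tq, Fintype.sum_option, Finset.sum_const] at hs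
  refine hs.trans_eq ?_
  congr 2
  · funext i; simp; field_simp; ring
  · congr 1; funext i; simp; field_simp; ring

end Max

theorem lim_le {A B : ℝ} (m : ℕ) (h : ∀ δ : ℝ, 0 < δ → δ < 1 → δ ^ m * A ≤ B) : A ≤ B := by
  have h1 : Tendsto (fun δ : ℝ => δ ^ m * A) (𝓝[<] 1) (𝓝 (1 ^ m * A)) :=
    (Continuous.tendsto (by fun_prop) 1).mono_left nhdsWithin_le_nhds
  rw [one_pow, one_mul] at h1
  exact le_of_tendsto h1 (mem_of_superset (Ioo_mem_nhdsLT one_pos) fun δ hδ => h δ hδ.1 hδ.2)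

/-! ### Almost quadratic functions -/

section Quad

variable {G : Type} [AddCommGroup G]

/-- the parallelogram inequality -/
structure Qd (h : G → ℝ) : Prop where
  nn : ∀ x, 0 ≤ h x
  zero : h 0 = 0
  par : ∀ x y, h (x + y) + h (x - y) ≤ 2 * h x + 2 * h y

variable {h : G → ℝ}

theorem Qd.add (H : Qd h) (x y : G) : h (x + y) ≤ 2 * h x + 2 * h y := by
  linarith [H.par x y, H.nn (x - y)]

theorem Qd.neg (H : Qd h) (x : G) : h (-x) ≤ h x := by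
  have := H.par 0 x
  rw [zero_add, zero_sub, H.zero] at this
  linarith

theorem Qd.nsmul (H : Qd h) (x : G) (c : ℕ) : h (c • x) ≤ c ^ 2 * h x := by
  induction c using Nat.strong_induction_on with
  | _ c ih =>
    obtain ⟨a, rfl | rfl⟩ := Nat.even_or_odd' c
    · rcases a.eq_zero_or_pos with rfl | ha
      · simp [H.zero]
      have h1 := H.par (a • x) (a • x)
      rw [sub_self, H.zero, ← add_smul, ← two_mul] at h1
      have h2 := ih a (by omega)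
      push_cast; linarith
    · rcases a.eq_zero_or_pos with rfl | ha
      · simp
      have h1 := H.par ((a + 1) • x) (a • x)
      rw [← add_smul, succ_nsmul, add_sub_cancel_left, ← succ_nsmul,
        show a + 1 + a = 2 * a + 1 by omega] at h1
      have h2 := ih a (by omega)
      have h3 := ih (a + 1) (by omega)
      push_cast at h3 ⊢; linarith

theorem Qd.zsmul (H : Qd h) (x : G) (c : ℤ) : h (c • x) ≤ c ^ 2 * h x := by
  obtain ⟨n, rfl | rfl⟩ := c.eq_nat_or_neg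
  · simpa using H.nsmul x n
  · simpa using (H.neg _).trans (H.nsmul x n)

theorem Qd.sum (H : Qd h) {κ : Type} (s : Finset κ) (a : κ → G) {c : ℝ} (hc : 0 ≤ c)
    (ha : ∀ k, h (a k) ≤ c) : h (∑ k ∈ s, a k) ≤ 4 ^ s.card * c := by
  classical
  induction s using Finset.induction_on with
  | empty => simpa [H.zero] using hc
  | insert k s hk ih =>
    rw [Finset.sum_insert hk, Finset.card_insert_of_notMem hk, pow_succ]
    have h1 : (1 : ℝ) ≤ 4 ^ s.card := one_le_pow₀ (by norm_num)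
    nlinarith [H.add (a k) (∑ k ∈ s, a k), ha k]

/-- the zeros -/
def Qd.ker (H : Qd h) : AddSubgroup G where
  carrier := {x | h x = 0}
  add_mem' := fun {x y} hx hy => le_antisymm (by
    have := H.add x y
    rw [show h x = 0 from hx, show h y = 0 from hy] at this
    linarith) (H.nn _)
  zero_mem' := H.zero
  neg_mem' := fun {x} hx => le_antisymm ((H.neg x).trans_eq hx) (H.nn _)

end Quad

/-- the properties of the normalised size of a theta function -/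
structure Nu (ℓ M : ℕ) {κ : Type} (b : κ → Mi g ℚ) (ν : Gq g → ℝ) : Prop where
  nn : ∀ x, 0 ≤ ν x
  le : ∀ x, ν x ≤ 1
  sup : ∀ δ : ℝ, δ < 1 → ∃ y, δ < ν y
  per : Per ν
  neg : ∀ x, ν (-x) = ν x
  rel : Rel ℓ ν
  iso : ∀ (K : ℕ) y β, (∀ s, ν y ≤ ν (y + ((ℓ : ℚ) ^ K)⁻¹ • qi s) → (ℓ : ℤ) ^ K ∣ pf β s) →
    ν (y + ((ℓ : ℚ) ^ K)⁻¹ • qi β) = ν y
  pos : ∀ w, ∃ z, 0 < ν z * ν (z + w)
  en : ∀ k x, ∃ a, ν x ≤ ν (b k *ᵥ x + (M : ℚ)⁻¹ • qi a)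

/-- the size of differences -/
def rho (ν : Gq g → ℝ) (w : Gq g) : ℝ := ⨆ z, ν z * ν (z + w)

namespace Nu

variable {ℓ M N : ℕ} {κ : Type} {b : κ → Mi g ℚ} {ν : Gq g → ℝ} (H : Nu ℓ M b ν)
include H

theorem mul_le (x y : Gq g) : ν x * ν y ≤ 1 := mul_le_one₀ (H.le _) (H.nn _) (H.le _)

theorem le_rho (z w : Gq g) : ν z * ν (z + w) ≤ rho ν w :=
  le_ciSup (f := fun z => ν z * ν (z + w)) ⟨1, Set.forall_mem_range.2 fun _ => H.mul_le _ _⟩ z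

theorem rho_le (w : Gq g) : rho ν w ≤ 1 := ciSup_le fun _ => H.mul_le _ _

theorem rho_pos (w : Gq g) : 0 < rho ν w := by
  obtain ⟨z, hz⟩ := H.pos w
  exact hz.trans_le (H.le_rho z w)

theorem ex_rho (w : Gq g) {δ : ℝ} (h : δ < 1) : ∃ z, δ * rho ν w < ν z * ν (z + w) :=
  exists_lt_of_lt_ciSup (mul_lt_of_lt_one_left (H.rho_pos w) h)

theorem rho_per : Per (rho ν) := fun x l => by simp only [rho, ← add_assoc, H.per _ l]

theorem rho_neg (w : Gq g) : rho ν (-w) = rho ν w := by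
  have : ∀ w, rho ν (-w) ≤ rho ν w := fun w => ciSup_le fun z => by
    have := H.le_rho (z + -w) w
    rwa [neg_add_cancel_right, mul_comm] at this
  exact (this w).antisymm ((congrArg _ (neg_neg w).symm).trans_le (this (-w)))

theorem one_le {A : ℝ} {m : ℕ} (h : ∀ y, ν y ^ m ≤ A) : 1 ≤ A := lim_le m fun δ h0 h1 => by
  obtain ⟨y, hy⟩ := H.sup δ h1
  rw [mul_one]
  exact (pow_le_pow_left₀ h0.le hy.le m).trans (h y)

theorem rho_zero : rho ν 0 = 1 := (H.rho_le 0).antisymm (H.one_le (m := 2) fun y => by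
  simpa [sq] using H.le_rho y 0)

theorem rho_rel (hl : 0 < ℓ) : Rel ℓ (rho ν) := by
  intro ι _ q k hq w
  have hN : 0 < ℓ ^ k := pow_pos hl k
  have h0 : ((ℓ ^ k : ℕ) : ℚ) ≠ 0 := Nat.cast_ne_zero.2 hN.ne'
  obtain ⟨s0, hs⟩ := ex_max hN (fun s => ∏ i, rho ν (tq q (ℓ ^ k) w s i)) fun l r =>
    Finset.prod_congr rfl fun i _ => by
      rw [← H.rho_per (tq q (ℓ ^ k) w l i) (q i • r), tq, tq, qi_add, qi_smul, qi_smul,
        ← add_assoc, smul_add, smul_smul, Int.cast_natCast, div_mul_cancel₀ _ h0, add_sub_right_comm]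
  refine ⟨s0, lim_le (Fintype.card ι) fun δ hδ h1 => ?_⟩
  choose z hz using fun i => H.ex_rho (w i) h1
  obtain ⟨s1, h1⟩ := H.rel ι q k hq z
  obtain ⟨s2, h2⟩ := H.rel ι q k hq (z + w)
  refine le_trans ?_ (hs (s2 - s1))
  rw [← Finset.card_univ, ← Finset.prod_const, ← Finset.prod_mul_distrib]
  refine (Finset.prod_le_prod (fun i _ => (mul_pos hδ (H.rho_pos _)).le) fun i _ => (hz i).le).trans ?_
  rw [Finset.prod_mul_distrib]
  refine (mul_le_mul h1 h2 (Finset.prod_nonneg fun _ _ => H.nn _)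
    (Finset.prod_nonneg fun _ _ => H.nn _)).trans ?_
  rw [← Finset.prod_mul_distrib]
  refine Finset.prod_le_prod (fun i _ => mul_nonneg (H.nn _) (H.nn _)) fun i _ => ?_
  refine le_trans (le_of_eq ?_) (H.le_rho (tq q (ℓ ^ k) z s1 i) (tq q (ℓ ^ k) w (s2 - s1) i))
  congr 2
  simp only [tq, qi_sub, Pi.add_apply, smul_add, smul_sub, Finset.sum_add_distrib]
  abel

theorem rho_iso (hl : 0 < ℓ) (K : ℕ) (β : Ix g → ℤ)
    (h : ∀ s, rho ν (((ℓ : ℚ) ^ K)⁻¹ • qi s) = 1 → (ℓ : ℤ) ^ K ∣ pf β s) :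
    rho ν (((ℓ : ℚ) ^ K)⁻¹ • qi β) = 1 := by
  classical
  have hN : 0 < ℓ ^ K := pow_pos hl K
  obtain ⟨s0, hs⟩ := ex_max hN (fun s => if rho ν (((ℓ : ℚ) ^ K)⁻¹ • qi s) = 1 then 0 else
    rho ν (((ℓ : ℚ) ^ K)⁻¹ • qi s)) fun l r => by rw [← Nat.cast_pow, inv_qi hN, H.rho_per]
  set d := if rho ν (((ℓ : ℚ) ^ K)⁻¹ • qi s0) = 1 then 0 else rho ν (((ℓ : ℚ) ^ K)⁻¹ • qi s0)
  have hd : d < 1 := by
    simp only [d]; split_ifs with h1
    exacts [one_pos, lt_of_le_of_ne (H.rho_le _) h1]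
  refine (H.rho_le _).antisymm (lim_le 2 fun δ h0 h1 => ?_)
  obtain ⟨y, hy⟩ := H.sup (max δ ((d + 1) / 2)) (max_lt h1 (by linarith))
  have h2 := (le_max_left _ _).trans_lt hy
  have h3 := (le_max_right _ _).trans_lt hy
  have h4 := H.iso K y β fun s h5 => h s (by
    by_contra h6
    have h7 := hs s
    rw [if_neg h6] at h7
    have h8 := (mul_le_mul_of_nonneg_left h5 (H.nn y)).trans ((H.le_rho _ _).trans h7)
    nlinarith [H.nn y])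
  have h5 := H.le_rho y (((ℓ : ℚ) ^ K)⁻¹ • qi β)
  rw [h4] at h5
  nlinarith

theorem rho_en (hM : 0 < M) (k : κ) (w : Gq g) :
    ∃ a, rho ν w ≤ rho ν (b k *ᵥ w + (M : ℚ)⁻¹ • qi a) := by
  obtain ⟨a0, h0⟩ := H.rho_per.max hM (b k *ᵥ w)
  refine ⟨a0, ciSup_le fun z => ?_⟩
  obtain ⟨a, ha⟩ := H.en k z
  obtain ⟨a', ha'⟩ := H.en k (z + w)
  refine (mul_le_mul ha ha' (H.nn _) (H.nn _)).trans (le_trans ?_ (h0 (a' - a)))
  refine le_trans (le_of_eq ?_) (H.le_rho (b k *ᵥ z + (M : ℚ)⁻¹ • qi a) _)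
  congr 2
  rw [mulVec_add, qi_sub, smul_sub]
  abel

/-- the height at level `N` -/
def ht (ν : Gq g → ℝ) (N : ℕ) (x : Gq g) : ℝ := -Real.log (mx (rho ν) N x)

theorem mx_pos (hN : 0 < N) (x : Gq g) : 0 < mx (rho ν) N x :=
  (H.rho_pos _).trans_le (H.rho_per.le_mx hN x 0)

theorem mx_le (hN : 0 < N) (x : Gq g) : mx (rho ν) N x ≤ 1 := ciSup_le fun _ => H.rho_le _

theorem ht_zero (hN : 0 < N) {x : Gq g} :
    ht ν N x = 0 ↔ ∃ l, rho ν (x + (N : ℚ)⁻¹ • qi l) = 1 := by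
  rw [ht, neg_eq_zero]
  refine ⟨fun h => ?_, fun ⟨l, h⟩ => ?_⟩
  · obtain ⟨l, hl⟩ := H.rho_per.ex_mx hN x
    exact ⟨l, hl ▸ Real.eq_one_of_pos_of_log_eq_zero (H.mx_pos hN x) h⟩
  · rw [(H.mx_le hN x).antisymm (h ▸ H.rho_per.le_mx hN x l), Real.log_one]

theorem ht_lat (hN : 0 < N) (l : Ix g → ℤ) : ht ν N ((N : ℚ)⁻¹ • qi l) = 0 :=
  (H.ht_zero hN).2 ⟨-l, by rw [qi_neg, smul_neg, add_neg_cancel, H.rho_zero]⟩

theorem qd (hl : 2 ≤ ℓ) (hN : 0 < N) : Qd (ht ν (ℓ * N)) := by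
  have hL : 0 < ℓ * N := by positivity
  have h0 : (ℓ : ℚ) ≠ 0 := by positivity
  refine ⟨fun x => neg_nonneg.2 (Real.log_nonpos (H.mx_pos hL x).le (H.mx_le hL x)),
    by simpa [qi_zero] using H.ht_lat hL 0, fun x y => ?_⟩
  obtain ⟨n, rfl⟩ := Nat.exists_eq_add_of_le' hl
  obtain ⟨a, ha⟩ := H.rho_per.ex_mx hL x
  obtain ⟨c, hc⟩ := H.rho_per.ex_mx hL y
  obtain ⟨s, _, rfl, hs⟩ := (H.rho_rel (by omega)).four (by omega) (a := n + 2) (b := n) (by omega)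
    (x + (((n + 2) * N : ℕ) : ℚ)⁻¹ • qi a) 0 (y + (((n + 2) * N : ℕ) : ℚ)⁻¹ • qi c)
  rw [smul_zero, add_zero, smul_add, inv_smul_smul₀ h0, inv_mul_qi hN s, H.rho_neg, ← ha, ← hc,
    H.rho_zero, one_pow, one_mul] at hs
  have k1 := H.rho_per.le_mx hL x (a + (N : ℤ) • s)
  have k2 := H.rho_per.le_mx hL (x - y) (a + (N : ℤ) • s - c)
  have k3 := H.rho_per.le_mx hL (x + y) (a + (N : ℤ) • s + c)
  rw [qi_add, smul_add, ← add_assoc] at k1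
  rw [qi_sub, qi_add, smul_sub, smul_add, ← add_sub_assoc, ← add_assoc, sub_add_eq_add_sub,
    sub_add_eq_add_sub, sub_sub] at k2
  rw [qi_add, qi_add, smul_add, smul_add, add_add_add_comm, ← add_assoc x] at k3
  have p1 := H.mx_pos hL x
  have p2 := H.mx_pos hL y
  have h1 := hs.trans (mul_le_mul (pow_le_one₀ (H.rho_pos _).le (H.rho_le _))
    (mul_le_mul (pow_le_pow_left₀ (H.rho_pos _).le ((congrArg _ (sub_zero _)).trans_le k1) n)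
      (mul_le_mul k2 k3 (H.rho_pos _).le (H.mx_pos hL _).le)
      (mul_pos (H.rho_pos _) (H.rho_pos _)).le (pow_pos p1 n).le)
    (mul_pos (pow_pos (H.rho_pos _) _) (mul_pos (H.rho_pos _) (H.rho_pos _))).le one_pos.le)
  rw [one_mul, pow_add, mul_assoc, mul_le_mul_iff_right₀ (pow_pos p1 n)] at h1
  have h2 := Real.log_le_log (by positivity) h1
  rw [Real.log_mul (pow_pos p1 2).ne' (mul_pos p2 p2).ne', Real.log_mul p2.ne' p2.ne', Real.log_pow,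
    Real.log_mul (H.mx_pos hL _).ne' (H.mx_pos hL _).ne'] at h2
  simp only [ht]
  push_cast at h2
  linarith

theorem dv (hl : 0 < ℓ) (y : Gq g) :
    ∃ y' l, (ℓ : ℚ) • y' = y + (ℓ : ℚ)⁻¹ • qi l ∧ ℓ ^ 2 * ht ν ℓ y' ≤ ht ν ℓ y := by
  have h0 : (ℓ : ℚ) ≠ 0 := by positivity
  obtain ⟨a, ha⟩ := H.rho_per.ex_mx hl y
  obtain ⟨s, hs⟩ := (H.rho_rel hl).two hl (y + (ℓ : ℚ)⁻¹ • qi a) 0
  refine ⟨_, a + s, (smul_inv_smul₀ h0 (y + (ℓ : ℚ)⁻¹ • qi a + (ℓ : ℚ)⁻¹ • qi s)).trans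
    (by rw [qi_add, smul_add, add_assoc]), ?_⟩
  rw [H.rho_zero, one_pow, mul_one, ← ha] at hs
  have h1 := H.rho_per.le_mx hl ((ℓ : ℚ)⁻¹ • (y + (ℓ : ℚ)⁻¹ • qi a + (ℓ : ℚ)⁻¹ • qi s)) 0
  rw [qi_zero, smul_zero, add_zero] at h1
  have h2 := Real.log_le_log (H.mx_pos hl y) (hs.trans ((mul_le_of_le_one_left
    (pow_pos (H.rho_pos _) _).le (H.rho_le _)).trans (pow_le_pow_left₀ (H.rho_pos _).le h1 _)))
  rw [Real.log_pow] at h2
  simp only [ht]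
  push_cast at h2
  linarith

theorem dvs (hl : 0 < ℓ) (y : Gq g) (j : ℕ) :
    ∃ y' l, (ℓ : ℚ) ^ j • y' = y + (ℓ : ℚ)⁻¹ • qi l ∧ ((ℓ : ℝ) ^ j) ^ 2 * ht ν ℓ y' ≤ ht ν ℓ y := by
  induction j with
  | zero => exact ⟨y, 0, by simp [qi_zero], by simp⟩
  | succ j ih =>
    obtain ⟨y1, l1, e1, h1⟩ := ih
    obtain ⟨y2, l2, e2, h2⟩ := H.dv hl y1
    refine ⟨y2, l1 + (ℓ : ℤ) ^ j • l2, ?_, le_trans ?_ h1⟩
    · rw [pow_succ, mul_smul, e2, smul_add, e1, qi_add, qi_smul, smul_add, add_assoc, smul_comm]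
      push_cast; rfl
    · rw [pow_succ _ j, mul_pow, mul_assoc]
      exact mul_le_mul_of_nonneg_left h2 (by positivity)

theorem bdd (hl : 2 ≤ ℓ) : ∃ C, ∀ x, ht ν ℓ x ≤ C := by
  have hl0 : 0 < ℓ := by omega
  have h0 : (ℓ : ℚ) ≠ 0 := by positivity
  have Q := H.qd hl one_pos
  rw [mul_one] at Q
  have hp : Per (ht ν ℓ) := fun x l => by
    simp only [ht, mx, add_right_comm x (qi l), H.rho_per _ l]
  obtain ⟨c, hc⟩ := hp.max (mul_pos hl0 hl0) 0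
  refine ⟨4 * ht ν ℓ (0 + ((ℓ * ℓ : ℕ) : ℚ)⁻¹ • qi c), fun x => ?_⟩
  obtain ⟨D, l, hD, rfl⟩ := ex_den x
  obtain ⟨m, hm⟩ := hp.max hD 0
  simp only [zero_add] at hm hc ⊢
  obtain ⟨y, s, e, h1⟩ := H.dv hl0 ((D : ℚ)⁻¹ • qi ((ℓ : ℤ) • m))
  have e2 : (D : ℚ)⁻¹ • qi m = y + ((ℓ * ℓ : ℕ) : ℚ)⁻¹ • qi (-s) := by
    rw [← inv_smul_smul₀ h0 y, e, qi_smul, qi_neg]
    funext i; simp; field_simp; ring
  have h2 := Q.add y (((ℓ * ℓ : ℕ) : ℚ)⁻¹ • qi (-s))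
  rw [← e2] at h2
  have h3 : (4 : ℝ) ≤ ℓ ^ 2 := by exact_mod_cast (by nlinarith : 4 ≤ ℓ ^ 2)
  nlinarith [hm l, hm ((ℓ : ℤ) • m), hc (-s), Q.nn y]

theorem ht_en (hl : 0 < ℓ) (hM : 0 < M) {B : κ → Mi g ℤ}
    (hB : ∀ k, (B k).map (↑) = (M : ℚ) • b k) (k : κ) (x : Gq g) :
    ht ν (ℓ * M) (b k *ᵥ x) ≤ ht ν ℓ x := by
  have hL : 0 < ℓ * M := by positivity
  have h0 : (ℓ : ℚ) ≠ 0 := by positivity
  have h1 : (M : ℚ) ≠ 0 := by positivity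
  obtain ⟨a, ha⟩ := H.rho_per.ex_mx hl x
  obtain ⟨c, hc⟩ := H.rho_en hM k (x + (ℓ : ℚ)⁻¹ • qi a)
  refine neg_le_neg (Real.log_le_log (H.mx_pos hl x) (ha.trans_le (hc.trans ?_)))
  refine le_trans (le_of_eq ?_) (H.rho_per.le_mx hL (b k *ᵥ x) (B k *ᵥ a + (ℓ : ℤ) • c))
  congr 1
  rw [qi_add, ← qi_mv, hB, qi_smul, mulVec_add, mulVec_smul, smul_mulVec, add_assoc]
  congr 1
  funext i; simp; field_simp

end Nu

theorem Nu.un {ℓ M : ℕ} [hp : Fact ℓ.Prime] {κ : Type} [Fintype κ] {b : κ → Mi g ℚ}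
    {ν : Gq g → ℝ} (H : Nu ℓ M b ν) (hM : 0 < M) {B : κ → Mi g ℤ}
    (hB : ∀ k, (B k).map (↑) = (M : ℚ) • b k) (hd : ∀ r : κ → ℚ, r ≠ 0 → IsUnit (∑ k, r k • b k))
    (u : κ → ℤ_[ℓ]) (hu : u ≠ 0) (an : ∀ x : Ix g → ℤ_[ℓ], (∀ k, pf x ((B k).map (↑) *ᵥ x) = 0) →
      ∀ y, ∑ k, u k * pf x ((B k).map (↑) *ᵥ y) = 0) (x : Gq g) :
    ∃ l, ν (x + ((ℓ ^ 2 * M : ℕ) : ℚ)⁻¹ • qi l) = 1 := by
  have hl := hp.out.two_le
  have hl0 : 0 < ℓ := by omega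
  have hL : 0 < ℓ * M := by positivity
  have h0 : (ℓ : ℚ) ≠ 0 := by positivity
  have h1 : (M : ℚ) ≠ 0 := by positivity
  have Q := H.qd hl one_pos
  rw [mul_one] at Q
  have Q' := H.qd hl hM
  have lat : ∀ l, (ℓ : ℚ)⁻¹ • qi l ∈ Q.ker := H.ht_lat hl0
  have lat' : ∀ l, qi l ∈ Q.ker := fun l => by
    have := lat ((ℓ : ℤ) • l)
    rwa [qi_smul, Int.cast_natCast, inv_smul_smul₀ h0] at this
  have mem : ∀ y, rho ν y = 1 → y ∈ Q.ker := fun y h =>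
    (H.ht_zero hl0).2 ⟨0, by rwa [qi_zero, smul_zero, add_zero]⟩
  have sub : ∀ z ∈ Q.ker, z ∈ Q'.ker := fun z hz => by
    obtain ⟨l, h⟩ := (H.ht_zero hl0).1 hz
    exact (H.ht_zero hL).2 ⟨_, by rwa [← inv_mul_qi hM]⟩
  obtain ⟨C, hC⟩ := H.bdd hl
  have key : ∀ y, Nu.ht ν (ℓ * M) y = 0 := fun y => by
    refine le_antisymm (le_of_forall_pos_le_add fun ε hε => ?_) (Q'.nn y)
    have hC0 : 0 ≤ C := (Q.nn 0).trans (hC 0)
    obtain ⟨e, he0, he⟩ : ∃ e : ℚ, 0 < e ∧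
        (e : ℝ) < min 1 (ε / (2 * 4 ^ Fintype.card κ * (ℓ * M) ^ 2 * C + 1)) := by
      obtain ⟨e, k1, k2⟩ := exists_rat_btwn (show (0 : ℝ) < min 1
        (ε / (2 * 4 ^ Fintype.card κ * (ℓ * M) ^ 2 * C + 1)) by positivity)
      exact ⟨e, by exact_mod_cast k1, k2⟩
    obtain ⟨r, hr, hre, ⟨j, hj⟩, hz⟩ := small (p := ℓ) Q.ker lat' B (fun k z hz => by
        obtain ⟨l, h⟩ := (H.ht_zero hL).1 (le_antisymm ((H.ht_en hl0 hM hB k z).trans_eq hz) (Q'.nn _))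
        have h2 := sub_mem (Q.ker.nsmul_mem (mem _ h) M) (lat l)
        rwa [← Nat.cast_smul_eq_nsmul ℚ, smul_add, smul_smul, Nat.cast_mul, mul_inv, mul_left_comm,
          mul_inv_cancel₀ h1, mul_one, add_sub_cancel_right, ← smul_mulVec, ← hB] at h2)
      (fun K β h => mem _ (H.rho_iso hl0 K β fun s hs => h s (mem _ hs))) u hu an he0
    choose c hc using hj
    obtain ⟨x, rfl⟩ := mulVec_surjective_iff_isUnit.2 (hd (((ℓ : ℚ) * M) • r)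
      (smul_ne_zero (mul_ne_zero h0 h1) hr)) y
    obtain ⟨x', l, e1, e2⟩ := H.dvs hl0 x j
    have e3 : (∑ k, (((ℓ : ℚ) * M) • r) k • b k) *ᵥ x =
        ∑ k, ((ℓ * M : ℤ) * c k) • b k *ᵥ x' + -∑ k, r k • qi (B k *ᵥ l) := by
      rw [eq_sub_of_add_eq e1.symm, sum_mulVec, ← Finset.sum_neg_distrib, ← Finset.sum_add_distrib]
      refine Finset.sum_congr rfl fun k _ => ?_
      rw [← qi_mv, hB, smul_mulVec, smul_mulVec, mulVec_sub, mulVec_smul, mulVec_smul,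
        ← Int.cast_smul_eq_zsmul ℚ, Int.cast_mul, ← hc]
      funext i; simp; field_simp; ring
    have h3 : ∀ k, Nu.ht ν (ℓ * M) (((ℓ * M : ℤ) * c k) • b k *ᵥ x') ≤ e * ((ℓ * M) ^ 2 * C) :=
      fun k => by
      have k1 : ((c k : ℝ)) = ℓ ^ j * (r k : ℝ) := by exact_mod_cast (hc k).symm
      have k2 : |(r k : ℝ)| ≤ e := by exact_mod_cast hre k
      have k3 : (0 : ℝ) < e := by exact_mod_cast he0
      have k4 : (r k : ℝ) ^ 2 ≤ e := by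
        have := (lt_min_iff.1 he).1
        nlinarith [sq_abs (r k : ℝ), abs_nonneg (r k : ℝ)]
      refine (Q'.zsmul _ _).trans ((mul_le_mul_of_nonneg_left (H.ht_en hl0 hM hB k x')
        (sq_nonneg _)).trans ?_)
      push_cast
      have k5 := mul_le_mul_of_nonneg_left (mul_le_mul k4 (e2.trans (hC x))
        (mul_nonneg (sq_nonneg _) (Q.nn _)) k3.le) (sq_nonneg ((ℓ : ℝ) * M))
      rw [k1]
      exact (le_of_eq (by ring)).trans (k5.trans_eq (by ring))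
    have h4 := Q'.sum Finset.univ _ ((Q'.nn _).trans (h3 (Function.ne_iff.1 hr).choose)) h3
    have h5 := Q'.add (∑ k, ((ℓ * M : ℤ) * c k) • b k *ᵥ x') (-∑ k, r k • qi (B k *ᵥ l))
    rw [← e3, show Nu.ht ν (ℓ * M) (-∑ k, r k • qi (B k *ᵥ l)) = 0 from sub _ (neg_mem (hz l))] at h5
    have h6 := (lt_div_iff₀ (by positivity)).1 (lt_min_iff.1 he).2
    rw [Finset.card_univ] at h4
    have k3 : (0 : ℝ) < e := by exact_mod_cast he0
    nlinarith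
  have hL' : 0 < ℓ ^ 2 * M := by positivity
  obtain ⟨l, hl'⟩ := H.per.ex_mx hL' x
  refine ⟨l, hl' ▸ (hl'.trans_le (H.le _)).antisymm (lim_le (2 * ℓ) fun δ d0 d1 => ?_)⟩
  obtain ⟨n, rfl⟩ := Nat.exists_eq_add_of_le' hl0
  have hn : (n : ℚ) ≠ 0 := Nat.cast_ne_zero.2 (by omega)
  obtain ⟨v, hv⟩ := H.sup δ d1
  obtain ⟨a, ha⟩ := (H.ht_zero hL).1 (key ((((n + 1 : ℕ) : ℚ) / n) • (x - v)))
  obtain ⟨z, hz⟩ := H.ex_rho ((((n + 1 : ℕ) : ℚ) / n) • (x - v) +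
    (((n + 1) * M : ℕ) : ℚ)⁻¹ • qi a) d1
  rw [ha, mul_one] at hz
  obtain ⟨s, c, e, hs⟩ := H.rel.four hl0 (a := n) (b := n) (by omega) (z + ((((n + 1 : ℕ) : ℚ) / n) •
    (x - v) + (((n + 1) * M : ℕ) : ℚ)⁻¹ • qi a)) (-z) v
  have e2 : c + v = x + (((n + 1) ^ 2 * M : ℕ) : ℚ)⁻¹ • qi ((n : ℤ) • a + ((n + 1) * M : ℤ) • s) := by
    rw [e, qi_add, qi_smul, qi_smul]
    funext i; simp; field_simp; ring
  rw [H.neg, H.neg, ← mul_assoc, ← mul_pow, mul_comm _ (ν z), e2] at hs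
  have p := fun y m => pow_le_one₀ (n := m) (H.nn y) (H.le y)
  have p' := fun y m => pow_nonneg (H.nn y) m
  refine le_trans ?_ (hs.trans ((mul_le_of_le_one_left (mul_nonneg (p' _ _) (mul_nonneg (H.nn _)
    (H.nn _))) (p _ _)).trans ((mul_le_of_le_one_left (mul_nonneg (H.nn _) (H.nn _)) (p _ _)).trans
      ((mul_le_of_le_one_left (H.nn _) (H.le _)).trans (H.per.le_mx hL' x _)))))
  calc δ ^ (2 * (n + 1)) * 1 = δ ^ n * (δ ^ n * (δ * δ)) := by ring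
    _ ≤ δ ^ n * (δ * δ) := mul_le_mul_of_nonneg_left (mul_le_of_le_one_left (by positivity)
        (pow_le_one₀ d0.le d1.le)) (by positivity)
    _ ≤ _ := mul_le_mul (pow_le_pow_left₀ d0.le hz.le n) (mul_le_mul hv.le hv.le d0.le (H.nn _))
        (by positivity) (pow_nonneg (mul_nonneg (H.nn _) (H.nn _)) n)

end Vale.Agent.P022K.GR
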